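import Mathlib

set_option autoImplicit false
set_option linter.all false

/-!
# P054 / T2, section C: the closing arithmetic

`p` points, `t` distances, `E₀` edges, `E'` the uniformised edges, which are counted from the first
point (`ES`), from the second point (`ER`) or by pairs of germs (`EB`).
-/

namespace Vale.Agent.P054.T2.H83

open Finset

/-- the edges are counted on the leaves of `s`, on the leaves of `r`, and by pairs -/
theorem card_split {S : Type*} [DecidableEq S] (Sg : Finset S) (E' ES ER EB : Finset (S × S))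
    (hsub : ∀ e ∈ E', e ∈ ES ∨ e ∈ ER ∨ e ∈ EB) (hE1 : ∀ e ∈ E', e.1 ∈ Sg)
    (hE2 : ∀ e ∈ E', e.2 ∈ Sg) {DS DR DB : ℝ}
    (hS : ∀ s ∈ Sg, (((E' ∩ ES).filter fun e => e.1 = s).card : ℝ) ≤ DS)
    (hR : ∀ s ∈ Sg, (((E' ∩ ER).filter fun e => e.2 = s).card : ℝ) ≤ DR)
    (hB : ((E' ∩ EB).card : ℝ) ≤ DB) :
    (E'.card : ℝ) ≤ Sg.card * DS + Sg.card * DR + DB := by
  have h1 : E' ⊆ (E' ∩ ES) ∪ (E' ∩ ER) ∪ (E' ∩ EB) := by
    intro e he
    simp only [mem_union, mem_inter]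
    rcases hsub e he with h | h | h
    · exact Or.inl (Or.inl ⟨he, h⟩)
    · exact Or.inl (Or.inr ⟨he, h⟩)
    · exact Or.inr ⟨he, h⟩
  have h2 : E'.card ≤ (E' ∩ ES).card + (E' ∩ ER).card + (E' ∩ EB).card :=
    (card_le_card h1).trans ((card_union_le _ _).trans (Nat.add_le_add_right (card_union_le _ _) _))
  have h3 : ((E' ∩ ES).card : ℝ) ≤ Sg.card * DS := by
    have h4 : (E' ∩ ES).card = ∑ s ∈ Sg, ((E' ∩ ES).filter fun e => e.1 = s).card :=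
      card_eq_sum_card_fiberwise fun e he => hE1 e (mem_inter.1 he).1
    rw [h4, Nat.cast_sum]
    refine (sum_le_sum hS).trans (le_of_eq ?_)
    rw [sum_const, nsmul_eq_mul]
  have h5 : ((E' ∩ ER).card : ℝ) ≤ Sg.card * DR := by
    have h4 : (E' ∩ ER).card = ∑ s ∈ Sg, ((E' ∩ ER).filter fun e => e.2 = s).card :=
      card_eq_sum_card_fiberwise fun e he => hE2 e (mem_inter.1 he).1
    rw [h4, Nat.cast_sum]
    refine (sum_le_sum hR).trans (le_of_eq ?_)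
    rw [sum_const, nsmul_eq_mul]
  have h6 : (E'.card : ℝ) ≤ (E' ∩ ES).card + (E' ∩ ER).card + (E' ∩ EB).card := by
    exact_mod_cast h2
  linarith

/-- powers of the window scale `T ≤ t^(1+2ε)` -/
theorem scale_le {t T ε : ℝ} (ht : 1 ≤ t) (hT0 : 0 ≤ T) (hT : T ≤ t ^ (1 + 2 * ε)) (hε : 0 ≤ ε)
    {m σ : ℕ} (hσ : σ ≤ m) {x : ℝ} :
    T ^ (m - σ) * t ^ ((σ : ℝ) + x) ≤ t ^ ((1 + 2 * ε) * m + x) := by
  have ht0 : 0 < t := by linarith
  have h1 : T ^ (m - σ) ≤ t ^ ((1 + 2 * ε) * ((m - σ : ℕ) : ℝ)) := by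
    calc T ^ (m - σ) ≤ (t ^ (1 + 2 * ε)) ^ (m - σ) := pow_le_pow_left₀ hT0 hT _
      _ = t ^ ((1 + 2 * ε) * ((m - σ : ℕ) : ℝ)) := by
          rw [← Real.rpow_natCast, ← Real.rpow_mul ht0.le]
  calc T ^ (m - σ) * t ^ ((σ : ℝ) + x) ≤
      t ^ ((1 + 2 * ε) * ((m - σ : ℕ) : ℝ)) * t ^ ((σ : ℝ) + x) := by gcongr
    _ = t ^ ((1 + 2 * ε) * ((m - σ : ℕ) : ℝ) + ((σ : ℝ) + x)) := by rw [← Real.rpow_add ht0]
    _ ≤ _ := by
        refine Real.rpow_le_rpow_of_exponent_le ht ?_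
        rw [Nat.cast_sub hσ]
        have hs : (0 : ℝ) ≤ σ := Nat.cast_nonneg _
        nlinarith [mul_nonneg hε hs]

/-- **the closing arithmetic of section C** (real form). `c` a constant, `L ≤ t^δ` all losses. -/
theorem numC {n : ℕ} {η ε δ c t T L p E₀ E' DS DR DB : ℝ} (hη : 0 < η) (hε : 0 ≤ ε)
    (hεη : 2 * ε * (2 * n + 1) ≤ η / 4) (hδ : 2 * δ ≤ η / 4) (hc : 0 ≤ c) (ht : 1 ≤ t)
    (hct : 16 * c < t ^ (η / 2)) (hT0 : 0 ≤ T) (hT : T ≤ t ^ (1 + 2 * ε)) (hL1 : 1 ≤ L)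
    (hL : L ≤ t ^ δ) (hp : t ^ (((n : ℝ) + 1) / 2 + η) ≤ p) (hE₀ : p ^ 4 ≤ 4 * (t * E₀))
    (hE' : E₀ ≤ L * E') {σ₁ σ₂ e : ℕ} (h1 : σ₁ ≤ n) (h2 : σ₂ ≤ n) (h3 : e ≤ 2 * n + 1)
    (hsplit : E' ≤ p ^ 2 * DS + p ^ 2 * DR + DB)
    (hDS : DS ≤ c * L * (T ^ (n - σ₁) * t ^ ((σ₁ : ℝ) + η)))
    (hDR : DR ≤ c * L * (T ^ (n - σ₂) * t ^ ((σ₂ : ℝ) + η)))
    (hDB : DB ≤ c * L * (T ^ (2 * n + 1 - e) * t ^ ((e : ℝ) + η))) : False := by
  have ht0 : 0 < t := by linarith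
  have hp0 : 0 < p := lt_of_lt_of_le (by positivity) hp
  have hL0 : 0 < L := by linarith
  have hn : (0 : ℝ) ≤ n := Nat.cast_nonneg _
  -- the bounds
  have b1 : DS ≤ c * L * t ^ ((1 + 2 * ε) * n + η) :=
    hDS.trans (mul_le_mul_of_nonneg_left (scale_le ht hT0 hT hε h1) (by positivity))
  have b2 : DR ≤ c * L * t ^ ((1 + 2 * ε) * n + η) :=
    hDR.trans (mul_le_mul_of_nonneg_left (scale_le ht hT0 hT hε h2) (by positivity))
  have b3 : DB ≤ c * L * t ^ ((1 + 2 * ε) * ((2 * n + 1 : ℕ) : ℝ) + η) :=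
    hDB.trans (mul_le_mul_of_nonneg_left (scale_le ht hT0 hT hε h3) (by positivity))
  have hA : t ^ ((1 + 2 * ε) * n + η) ≤ t ^ ((n : ℝ) + 5 * η / 4) :=
    Real.rpow_le_rpow_of_exponent_le ht (by nlinarith [mul_nonneg hε hn])
  have hB : t ^ ((1 + 2 * ε) * ((2 * n + 1 : ℕ) : ℝ) + η) ≤ t ^ (2 * (n : ℝ) + 1 + 5 * η / 4) :=
    Real.rpow_le_rpow_of_exponent_le ht (by push_cast; linarith)
  -- the lower bounds
  have hp2 : t ^ ((n : ℝ) + 1 + 2 * η) ≤ p ^ 2 := by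
    calc t ^ ((n : ℝ) + 1 + 2 * η) = (t ^ (((n : ℝ) + 1) / 2 + η)) ^ 2 := by
          rw [← Real.rpow_natCast, ← Real.rpow_mul ht0.le]; congr 1; push_cast; ring
      _ ≤ p ^ 2 := pow_le_pow_left₀ (by positivity) hp 2
  have h4 : p ^ 4 ≤ 4 * t * L * (p ^ 2 * (2 * (c * L * t ^ ((n : ℝ) + 5 * η / 4))) +
      c * L * t ^ (2 * (n : ℝ) + 1 + 5 * η / 4)) := by
    have h5 : E' ≤ p ^ 2 * (2 * (c * L * t ^ ((n : ℝ) + 5 * η / 4))) +
        c * L * t ^ (2 * (n : ℝ) + 1 + 5 * η / 4) := by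
      have c1 : DS ≤ c * L * t ^ ((n : ℝ) + 5 * η / 4) :=
        b1.trans (mul_le_mul_of_nonneg_left hA (by positivity))
      have c2 : DR ≤ c * L * t ^ ((n : ℝ) + 5 * η / 4) :=
        b2.trans (mul_le_mul_of_nonneg_left hA (by positivity))
      have c3 : DB ≤ c * L * t ^ (2 * (n : ℝ) + 1 + 5 * η / 4) :=
        b3.trans (mul_le_mul_of_nonneg_left hB (by positivity))
      have hpp : 0 ≤ p ^ 2 := by positivity
      nlinarith [mul_le_mul_of_nonneg_left c1 hpp, mul_le_mul_of_nonneg_left c2 hpp]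
    calc p ^ 4 ≤ 4 * (t * E₀) := hE₀
      _ ≤ 4 * (t * (L * E')) := by gcongr
      _ = 4 * t * L * E' := by ring
      _ ≤ _ := by gcongr
  -- division by `p ^ 2`
  have hL2 : L * L ≤ t ^ (η / 4) := by
    calc L * L ≤ t ^ δ * t ^ δ := by gcongr
      _ = t ^ (2 * δ) := by rw [← Real.rpow_add ht0]; congr 1; ring
      _ ≤ _ := Real.rpow_le_rpow_of_exponent_le ht hδ
  have h6 : t ^ (2 * (n : ℝ) + 1 + 5 * η / 4) ≤ p ^ 2 * t ^ ((n : ℝ) + 5 * η / 4) := by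
    calc t ^ (2 * (n : ℝ) + 1 + 5 * η / 4) ≤
          t ^ ((n : ℝ) + 1 + 2 * η) * t ^ ((n : ℝ) + 5 * η / 4) := by
          rw [← Real.rpow_add ht0]
          exact Real.rpow_le_rpow_of_exponent_le ht (by linarith)
      _ ≤ _ := by gcongr
  have h7 : p ^ 4 ≤ p ^ 2 * (16 * c * (L * L) * (t * t ^ ((n : ℝ) + 5 * η / 4))) := by
    refine h4.trans ?_
    have h8 : c * L * t ^ (2 * (n : ℝ) + 1 + 5 * η / 4) ≤
        c * L * (p ^ 2 * t ^ ((n : ℝ) + 5 * η / 4)) := by gcongr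
    have h9 : 4 * t * L * (p ^ 2 * (2 * (c * L * t ^ ((n : ℝ) + 5 * η / 4))) +
        c * L * t ^ (2 * (n : ℝ) + 1 + 5 * η / 4)) ≤
        4 * t * L * (p ^ 2 * (2 * (c * L * t ^ ((n : ℝ) + 5 * η / 4))) +
          c * L * (p ^ 2 * t ^ ((n : ℝ) + 5 * η / 4))) := by gcongr
    refine h9.trans ?_
    have h10 : 0 ≤ p ^ 2 * (c * (L * L) * (t * t ^ ((n : ℝ) + 5 * η / 4))) := by positivity
    nlinarith
  have h8 : p ^ 2 ≤ 16 * c * (L * L) * (t * t ^ ((n : ℝ) + 5 * η / 4)) := by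
    have h9 : p ^ 4 = p ^ 2 * p ^ 2 := by ring
    rw [h9] at h7
    exact le_of_mul_le_mul_left h7 (by positivity)
  have h9 : t * t ^ ((n : ℝ) + 5 * η / 4) = t ^ ((n : ℝ) + 1 + 5 * η / 4) := by
    nth_rewrite 1 [← Real.rpow_one t]
    rw [← Real.rpow_add ht0]; congr 1; ring
  rw [h9] at h8
  have h10 : 16 * c * (L * L) * t ^ ((n : ℝ) + 1 + 5 * η / 4) <
      t ^ (η / 2) * t ^ (η / 4) * t ^ ((n : ℝ) + 1 + 5 * η / 4) := by
    have hX : 0 < t ^ ((n : ℝ) + 1 + 5 * η / 4) := by positivity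
    have hY : 16 * c * (L * L) < t ^ (η / 2) * t ^ (η / 4) := by
      calc 16 * c * (L * L) ≤ 16 * c * t ^ (η / 4) := by gcongr
        _ < _ := by gcongr
    exact mul_lt_mul_of_pos_right hY hX
  have h11 : t ^ (η / 2) * t ^ (η / 4) * t ^ ((n : ℝ) + 1 + 5 * η / 4) =
      t ^ ((n : ℝ) + 1 + 2 * η) := by
    rw [← Real.rpow_add ht0, ← Real.rpow_add ht0]; congr 1; ring
  rw [h11] at h10
  linarith

end Vale.Agent.P054.T2.H83
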