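import Vale.Agent.P054.T2.H428.SecC
import Vale.Agent.P054.T2.H930.Block
import Vale.Agent.P054.T2.H192.Tree

set_option autoImplicit false
set_option linter.all false

/-!
# P054 / T2, section C: vertical tangent vectors of the hat leaf

`exists_vert`: if `0 < v` there is a tangent vector `x ≠ 0` in the direction of `r` alone.
`v_zero_linear`, `v_zero_stereo`: in the cases LINEAR and STEREO there is none.
-/

namespace Vale.Agent.P054.T2.H83

open MvPolynomial Finset Module
open SecC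
open H686 (mu Qf Bf)
open H930 (germ grad)

variable {n : ℕ}

/-- a system with fewer equations than unknowns -/
theorem exists_perp {ι : Type*} [Fintype ι] {m : ℕ} (G : Fin m → ι → ℝ)
    (h : m < Fintype.card ι) : ∃ x : ι → ℝ, x ≠ 0 ∧ ∀ j, ∑ z, x z * G j z = 0 := by
  classical
  let φ : (ι → ℝ) →ₗ[ℝ] (Fin m → ℝ) := Matrix.mulVecLin (Matrix.of G)
  have h1 : finrank ℝ (Fin m → ℝ) < finrank ℝ (ι → ℝ) := by simpa using h
  have h2 : ¬ Function.Injective φ := fun hi =>
    absurd (LinearMap.finrank_le_finrank_of_injective hi) (not_le.2 h1)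
  rw [injective_iff_map_eq_zero] at h2
  push Not at h2
  obtain ⟨x, hx, hx0⟩ := h2
  refine ⟨x, hx0, fun j => ?_⟩
  have h3 := congrFun hx j
  simp only [φ, Matrix.mulVecLin_apply, Matrix.mulVec, dotProduct, Matrix.of_apply,
    Pi.zero_apply] at h3
  rw [← h3]
  exact Finset.sum_congr rfl fun z _ => mul_comm _ _

variable {A : Finset (ZZ n × ZZ n)} {W D σ v : ℕ}

/-- **vertical tangent vector** (raw form) -/
theorem exists_vert_raw (S : Side n A W D σ v) {e : ZZ n × ZZ n} (he : e ∈ A) (hv : 0 < v) :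
    ∃ x : ZI n → ℝ, x ≠ 0 ∧ ∀ G ∈ S.P e,
      ∑ z, x z * eval (hx e.1 e.2) (pderiv (Sum.inr z) G) = 0 := by
  classical
  have hcard : 2 * (n + 1) - v < Fintype.card (ZI n) := by
    have h1 : Fintype.card (ZI n) = 2 * (n + 1) := by
      simp [ZI]; ring
    have h2 := S.hv
    omega
  obtain ⟨x, hx0, hx1⟩ := exists_perp (fun (j : Fin (2 * (n + 1) - v)) (z : ZI n) =>
      eval (hx e.1 e.2) (pderiv (Sum.inr z) (S.F e.1 (Fin.natAdd _ j)))) hcard
  refine ⟨x, hx0, fun G hG => ?_⟩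
  have h3 := H930.grad_mem_of_mem_germ (S.hzero e he) hG
  -- the functional `∑ x z * g (inr z)` kills the gradients of the system
  let L : (HL n → ℝ) →ₗ[ℝ] ℝ := ∑ z : ZI n, x z • LinearMap.proj (Sum.inr z)
  have hL : ∀ g : HL n → ℝ, L g = ∑ z, x z * g (Sum.inr z) := by
    intro g
    simp [L, LinearMap.sum_apply]
  have h4 : Submodule.span ℝ (Set.range fun i => grad (hx e.1 e.2) (S.F e.1 i)) ≤
      LinearMap.ker L := by
    rw [Submodule.span_le]
    rintro _ ⟨i, rfl⟩
    show L _ = 0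
    rw [hL]
    refine Fin.addCases (fun i => ?_) (fun j => ?_) i
    · refine Finset.sum_eq_zero fun z _ => ?_
      have h5 : pderiv (Sum.inr z) (S.F e.1 (Fin.castAdd _ i)) = 0 := by
        rw [S.hleft]
        exact H930.pderiv_rename_notMem Sum.inl _ _ (by rintro ⟨a, ha⟩; cases ha)
      show x z * eval (hx e.1 e.2) (pderiv (Sum.inr z) (S.F e.1 (Fin.castAdd _ i))) = 0
      rw [h5, map_zero, mul_zero]
    · exact hx1 j
  have h6 := h4 h3
  have h7 : L (grad (hx e.1 e.2) G) = 0 := h6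
  rw [hL] at h7
  exact h7

/-- a vector of the `2 d` coordinates as a point -/
def toZ (x : ZI n → ℝ) : ZZ n := (fun i => x (Sum.inl i), fun i => x (Sum.inr i))

theorem toZ_ne {x : ZI n → ℝ} (hx : x ≠ 0) : toZ x ≠ 0 := by
  intro h
  apply hx
  funext z
  rcases z with z | z
  · exact congrFun (congrArg Prod.fst h) z
  · exact congrFun (congrArg Prod.snd h) z

theorem sum_ZI (g : ZI n → ℝ) :
    ∑ z, g z = (∑ i, g (Sum.inl i)) + ∑ i, g (Sum.inr i) := Fintype.sum_sum_type g

theorem eval_pderiv_rename (s r : ZZ n) (z : ZI n) (G : MvPolynomial (ZI n) ℝ) :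
    eval (hx s r) (pderiv (Sum.inr z) (rename (R := ℝ) Sum.inr G)) =
      eval (pt r) (pderiv z G) := by
  rw [pderiv_rename Sum.inr_injective, eval_rename]
  rfl

/-- **vertical tangent vector** -/
theorem exists_vert (S : Side n A W D σ v) {e : ZZ n × ZZ n} (he : e ∈ A) (hv : 0 < v) :
    ∃ x : ZZ n, x ≠ 0 ∧ x ∈ S.V e ∧ (∃ c : ℝ, x.1 = c • (e.2.1 - e.1.1)) ∧
      Bf x (e.2 - e.1) = 0 := by
  classical
  obtain ⟨y, hy0, hy⟩ := exists_vert_raw S he hv
  have hne := S.hne e he
  refine ⟨toZ y, toZ_ne hy0, ?_, ?_, ?_⟩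
  · intro l hl
    have h1 := hy _ hl
    simp only [eval_pderiv_rename] at h1
    rw [sum_ZI] at h1
    have h2 : ∀ i : Fin (n + 1), eval (pt e.2) (pderiv (Sum.inl i) (linL l e.2)) =
        l (Pi.single i 1, 0) := by
      intro i
      simp [linL, pderiv_X, Pi.single_apply]
    have h3 : ∀ i : Fin (n + 1), eval (pt e.2) (pderiv (Sum.inr i) (linL l e.2)) =
        l (0, Pi.single i 1) := by
      intro i
      simp [linL, pderiv_X, Pi.single_apply]
    simp only [h2, h3] at h1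
    rw [lin_apply l (toZ y)]
    rw [← h1]
    simp only [toZ]
    congr 1
    · exact Finset.sum_congr rfl fun i _ => mul_comm _ _
    · exact Finset.sum_congr rfl fun i _ => mul_comm _ _
  · refine ⟨(toZ y).1 0 / (e.2.1 0 - e.1.1 0), ?_⟩
    have hne' : e.2.1 0 - e.1.1 0 ≠ 0 := sub_ne_zero.2 (Ne.symm hne)
    have hne2 : e.1.1 0 - e.2.1 0 ≠ 0 := sub_ne_zero.2 hne
    funext j
    refine Fin.cases ?_ (fun j => ?_) j
    · simp only [Pi.smul_apply, Pi.sub_apply, smul_eq_mul]
      field_simp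
    · have h1 := hy _ (S.hinc e he j)
      rw [sum_ZI] at h1
      have h2 : ∀ i : Fin (n + 1), eval (hx e.1 e.2) (pderiv (Sum.inr (Sum.inl i)) (incL e.1 j)) =
          (if i = j.succ then 1 else 0) - (if i = 0 then mu e.1 e.2 j else 0) := by
        intro i
        by_cases h1 : i = j.succ
        · subst h1
          simp [incL, pderiv_X, Pi.single_apply, Fin.succ_ne_zero, hx, pt]
        · by_cases h2 : i = 0
          · subst h2
            simp [incL, pderiv_X, Pi.single_apply, h1, hx, pt, Ne.symm h1]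
          · simp [incL, pderiv_X, Pi.single_apply, h1, h2, hx, pt, Ne.symm h1, Ne.symm h2]
      have h3 : ∀ i : Fin (n + 1), eval (hx e.1 e.2) (pderiv (Sum.inr (Sum.inr i)) (incL e.1 j)) =
          0 := by
        intro i
        simp [incL, pderiv_X, Pi.single_apply]
      simp only [h2, h3] at h1
      simp only [mul_zero, Finset.sum_const_zero, add_zero, mul_sub, Finset.sum_sub_distrib,
        mul_ite, mul_one, Finset.sum_ite_eq', Finset.mem_univ, if_true] at h1
      simp only [Pi.smul_apply, Pi.sub_apply, smul_eq_mul, toZ]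
      have h4 : y (Sum.inl j.succ) = y (Sum.inl 0) * mu e.1 e.2 j := by linarith
      rw [h4]
      simp only [mu]
      field_simp
      ring
  · have h1 := hy _ (S.hincQ e he)
    rw [sum_ZI] at h1
    have h2 : ∀ i : Fin (n + 1), eval (hx e.1 e.2) (pderiv (Sum.inr (Sum.inl i)) (incQ e.1)) =
        e.2.2 i - e.1.2 i := by
      intro i
      simp [incQ, pderiv_X, Pi.single_apply, hx, pt, pderiv_mul]
    have h3 : ∀ i : Fin (n + 1), eval (hx e.1 e.2) (pderiv (Sum.inr (Sum.inr i)) (incQ e.1)) =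
        e.2.1 i - e.1.1 i := by
      intro i
      simp [incQ, pderiv_X, Pi.single_apply, hx, pt, pderiv_mul]
    simp only [h2, h3] at h1
    rw [← h1]
    simp only [Bf, toZ, Prod.fst_sub, Prod.snd_sub, Pi.sub_apply]
    rw [← Finset.sum_add_distrib]
    exact Finset.sum_congr rfl fun i _ => by ring

/-- **[V0], LINEAR**: no vertical dimension -/
theorem v_zero_linear (S : Side n A W D σ v) {e : ZZ n × ZZ n} (he : e ∈ A)
    (V : Submodule ℝ (ZZ n)) (hV : S.V e ≤ V) (hw : e.1 - e.2 ∉ V)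
    (hinj : ∀ w ∈ V ⊔ Submodule.span ℝ {e.1 - e.2}, w.1 = 0 → w = 0) : v = 0 := by
  by_contra hv
  obtain ⟨x, hx0, hxV, ⟨c, hc⟩, -⟩ := exists_vert S he (Nat.pos_of_ne_zero hv)
  have h1 : x + c • (e.1 - e.2) = 0 := by
    refine hinj _ (Submodule.add_mem_sup (hV hxV)
      (Submodule.smul_mem _ _ (Submodule.mem_span_singleton_self _))) ?_
    rw [Prod.fst_add, Prod.smul_fst, Prod.fst_sub, hc, ← smul_add]
    simp
  by_cases hc0 : c = 0
  · rw [hc0, zero_smul, add_zero] at h1
    exact hx0 h1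
  · apply hw
    have h2 : e.1 - e.2 = (-c⁻¹) • x := by
      have h3 : c • (e.1 - e.2) = -x := by
        rw [eq_neg_iff_add_eq_zero, add_comm]; exact h1
      rw [neg_smul, ← smul_neg, ← h3, smul_smul, inv_mul_cancel₀ hc0, one_smul]
    rw [h2]
    exact Submodule.smul_mem _ _ (hV hxV)

/-- **[V0], STEREO**: no vertical dimension -/
theorem v_zero_stereo (S : Side n A W D σ v) {e : ZZ n × ZZ n} (he : e ∈ A)
    (V : Submodule ℝ (ZZ n)) (hV : S.V e ≤ V) (hinj : ∀ w ∈ V, w.1 = 0 → w = 0)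
    (s' : ZZ n) (hs' : s'.1 = e.1.1) (hs2 : e.2 - s' ∈ V)
    (hne : Bf (s' - e.1) (e.2 - s') ≠ 0) : v = 0 := by
  by_contra hv
  obtain ⟨x, hx0, hxV, ⟨c, hc⟩, hB⟩ := exists_vert S he (Nat.pos_of_ne_zero hv)
  have h1 : x = c • (e.2 - s') := by
    have h2 : x - c • (e.2 - s') = 0 := by
      refine hinj _ (V.sub_mem (hV hxV) (V.smul_mem _ hs2)) ?_
      rw [Prod.fst_sub, Prod.smul_fst, Prod.fst_sub, hc, hs', sub_self]
    exact sub_eq_zero.1 h2
  have hc0 : c ≠ 0 := by
    rintro rfl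
    exact hx0 (by rw [h1, zero_smul])
  have hQ0 : Qf (s' - e.1) = 0 := by
    unfold Qf
    refine Finset.sum_eq_zero fun i _ => ?_
    rw [Prod.fst_sub, hs', sub_self, Pi.zero_apply, zero_mul]
  have hQ1 : Qf (e.2 - e.1) = 0 := by
    have h3 := S.hQ e he
    have h4 : e.2 - e.1 = (-1 : ℝ) • (e.1 - e.2) := by rw [neg_one_smul, neg_sub]
    rw [h4, H686.Qf_smul, h3, mul_zero]
  have h5 : e.2 - e.1 = (s' - e.1) + (e.2 - s') := by abel
  rw [h5, H686.Qf_add, hQ0, zero_add] at hQ1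
  have h6 : Bf x (e.2 - e.1) = c * (Bf (s' - e.1) (e.2 - s') + 2 * Qf (e.2 - s')) := by
    rw [h1, h5, H192.Bf_smul_left, H192.Bf_add_right, H192.Bf_self, H192.Bf_comm (e.2 - s')]
  rw [h6] at hB
  rcases mul_eq_zero.1 hB with h7 | h7
  · exact hc0 h7
  · apply hne
    linarith

end Vale.Agent.P054.T2.H83
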