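import Vale.Agent.P054.T2.H83.NumC

set_option autoImplicit false
set_option linter.all false

/-!
# P054 / T2, section C: from the natural numbers of the counts to the closing arithmetic
-/

namespace Vale.Agent.P054.T2.H83

/-- the bound of one leaf: `Cst D^a W^(n-σ) ((N+1)^σ + G)` -/
theorem ds_of_nat {n σ N a : ℕ} {Cst D W G C η t : ℝ} (hσ : σ ≤ n) (hη : 0 ≤ η) (ht : 1 ≤ t)
    (hC : 0 ≤ C) (hCst : 0 ≤ Cst) (hD : 0 ≤ D) (hW : 0 ≤ W) (hN : (N : ℝ) + 1 ≤ 9 * t)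
    (hG : G ≤ C * t ^ ((σ : ℝ) + η)) :
    Cst * D ^ a * W ^ (n - σ) * (((N : ℝ) + 1) ^ σ + G) ≤
      (Cst * (9 ^ n + C)) * D ^ a * (W ^ (n - σ) * t ^ ((σ : ℝ) + η)) := by
  have ht0 : 0 < t := by linarith
  have h1 : ((N : ℝ) + 1) ^ σ ≤ 9 ^ n * t ^ ((σ : ℝ) + η) := by
    calc ((N : ℝ) + 1) ^ σ ≤ (9 * t) ^ σ := pow_le_pow_left₀ (by positivity) hN _
      _ = 9 ^ σ * t ^ (σ : ℝ) := by rw [mul_pow, Real.rpow_natCast]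
      _ ≤ 9 ^ n * t ^ ((σ : ℝ) + η) := by
          gcongr
          · norm_num
          · linarith
  calc Cst * D ^ a * W ^ (n - σ) * (((N : ℝ) + 1) ^ σ + G) ≤
      Cst * D ^ a * W ^ (n - σ) * (9 ^ n * t ^ ((σ : ℝ) + η) + C * t ^ ((σ : ℝ) + η)) := by
        gcongr
    _ = _ := by ring

/-- the bound of the pairs: `Cst D^a W^(2n+1-(σ₁+σ₂)) (2 (4t+1)^σ₁) (2 (4t+1)^σ₂)` -/
theorem db_of_nat {n σ₁ σ₂ a : ℕ} {Cst D W η t : ℝ} (h₁ : σ₁ ≤ n) (h₂ : σ₂ ≤ n) (hη : 0 ≤ η)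
    (ht : 1 ≤ t) (hCst : 0 ≤ Cst) (hD : 0 ≤ D) (hW : 0 ≤ W) :
    Cst * D ^ a * W ^ (2 * n + 1 - (σ₁ + σ₂)) *
        ((2 * (4 * t + 1) ^ σ₁) * (2 * (4 * t + 1) ^ σ₂)) ≤
      (Cst * (4 * 5 ^ (2 * n))) * D ^ a *
        (W ^ (2 * n + 1 - (σ₁ + σ₂)) * t ^ (((σ₁ + σ₂ : ℕ) : ℝ) + η)) := by
  have ht0 : 0 < t := by linarith
  have h3 : ∀ σ : ℕ, σ ≤ n → (4 * t + 1) ^ σ ≤ 5 ^ n * t ^ (σ : ℝ) := by
    intro σ hσ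
    calc (4 * t + 1) ^ σ ≤ (5 * t) ^ σ := pow_le_pow_left₀ (by positivity) (by linarith) _
      _ = 5 ^ σ * t ^ (σ : ℝ) := by rw [mul_pow, Real.rpow_natCast]
      _ ≤ 5 ^ n * t ^ (σ : ℝ) := by gcongr; norm_num
  calc Cst * D ^ a * W ^ (2 * n + 1 - (σ₁ + σ₂)) *
        ((2 * (4 * t + 1) ^ σ₁) * (2 * (4 * t + 1) ^ σ₂)) ≤
      Cst * D ^ a * W ^ (2 * n + 1 - (σ₁ + σ₂)) *
        ((2 * (5 ^ n * t ^ (σ₁ : ℝ))) * (2 * (5 ^ n * t ^ (σ₂ : ℝ)))) := by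
        have a1 := h3 σ₁ h₁
        have a2 := h3 σ₂ h₂
        gcongr
    _ = (Cst * (4 * 5 ^ (2 * n))) * D ^ a *
        (W ^ (2 * n + 1 - (σ₁ + σ₂)) * (t ^ (σ₁ : ℝ) * t ^ (σ₂ : ℝ))) := by ring
    _ ≤ _ := by
        have h4 : t ^ (σ₁ : ℝ) * t ^ (σ₂ : ℝ) ≤ t ^ (((σ₁ + σ₂ : ℕ) : ℝ) + η) := by
          rw [← Real.rpow_add ht0]
          exact Real.rpow_le_rpow_of_exponent_le ht (by push_cast; linarith)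
        gcongr

/-- **section C, numbers.** `p = |P|`, `E₀ ≤ β^a₀ E'`, `D ≤ β^a₁`, `W ≤ β^M ≤ t^(1+2ε)`; the leaf
counts have the exponents `a₂`, the pairs `a₃` of `D`. -/
theorem numC_nat {n : ℕ} {η ε δ : ℝ} {Cst C : ℝ} {t β M a₀ a₁ a₂ a₃ N σ₁ σ₂ : ℕ}
    {p E₀ E' D W DS DR DB G₁ G₂ : ℝ}
    (hη : 0 < η) (hε : 0 ≤ ε) (hεη : 2 * ε * (2 * n + 1) ≤ η / 4) (hδ : 2 * δ ≤ η / 4)
    (hC : 0 ≤ C) (hCst : 0 ≤ Cst) (ht : 1 ≤ t) (hβ : 1 ≤ β) (hM : 1 ≤ M)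
    (hct : 16 * (Cst * (9 ^ n + 4 * 5 ^ (2 * n) + C)) < (t : ℝ) ^ (η / 2))
    (hβM : (β : ℝ) ^ M ≤ (t : ℝ) ^ (1 + 2 * ε))
    (hL : (β : ℝ) ^ (a₀ + a₁ * (a₂ + a₃)) ≤ (t : ℝ) ^ δ)
    (hp : (t : ℝ) ^ (((n : ℝ) + 1) / 2 + η) ≤ p) (hE₀ : p ^ 4 ≤ 4 * (t * E₀))
    (hE' : E₀ ≤ (β : ℝ) ^ a₀ * E') (hD0 : 1 ≤ D) (hD : D ≤ (β : ℝ) ^ a₁) (hW0 : 0 ≤ W)
    (hW : W ≤ (β : ℝ) ^ M) (hσ₁ : σ₁ ≤ n) (hσ₂ : σ₂ ≤ n) (hN : (N : ℝ) + 1 ≤ 9 * t)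
    (hG₁ : G₁ ≤ C * (t : ℝ) ^ ((σ₁ : ℝ) + η)) (hG₂ : G₂ ≤ C * (t : ℝ) ^ ((σ₂ : ℝ) + η))
    (hsplit : E' ≤ p ^ 2 * DS + p ^ 2 * DR + DB)
    (hDS : DS ≤ Cst * D ^ a₂ * W ^ (n - σ₁) * (((N : ℝ) + 1) ^ σ₁ + G₁))
    (hDR : DR ≤ Cst * D ^ a₂ * W ^ (n - σ₂) * (((N : ℝ) + 1) ^ σ₂ + G₂))
    (hDB : DB ≤ Cst * D ^ a₃ * W ^ (2 * n + 1 - (σ₁ + σ₂)) *
        ((2 * (4 * (t : ℝ) + 1) ^ σ₁) * (2 * (4 * (t : ℝ) + 1) ^ σ₂))) : False := by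
  have htr : (1 : ℝ) ≤ t := by exact_mod_cast ht
  have ht0 : (0 : ℝ) < t := by linarith
  have hβr : (1 : ℝ) ≤ β := by exact_mod_cast hβ
  set c : ℝ := Cst * (9 ^ n + 4 * 5 ^ (2 * n) + C) with hc
  set L : ℝ := (β : ℝ) ^ (a₀ + a₁ * (a₂ + a₃)) with hLdef
  have hL1 : 1 ≤ L := one_le_pow₀ hβr
  have hD0' : 0 ≤ D := by linarith
  -- the powers of `D` are below `L`
  have hDp : ∀ a : ℕ, a ≤ a₂ + a₃ → D ^ a ≤ L := by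
    intro a ha
    calc D ^ a ≤ ((β : ℝ) ^ a₁) ^ a := pow_le_pow_left₀ hD0' hD _
      _ = (β : ℝ) ^ (a₁ * a) := by rw [← pow_mul]
      _ ≤ L := pow_le_pow_right₀ hβr (by nlinarith [Nat.mul_le_mul_left a₁ ha])
  have hE'' : E₀ ≤ L * E' := by
    have hE0 : 0 ≤ E' := by
      by_contra hneg
      push Not at hneg
      have h1 : E₀ < 0 := lt_of_le_of_lt hE' (mul_neg_of_pos_of_neg (by positivity) hneg)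
      have h2 : 0 < p := lt_of_lt_of_le (by positivity) hp
      have h3 : 0 < p ^ 4 := by positivity
      have h4 : (t : ℝ) * E₀ < 0 := mul_neg_of_pos_of_neg ht0 h1
      linarith
    refine hE'.trans (mul_le_mul_of_nonneg_right ?_ hE0)
    exact pow_le_pow_right₀ hβr (by omega)
  have hc0 : 0 ≤ c := by positivity
  have hcL : ∀ (κ : ℝ), 0 ≤ κ → κ ≤ 9 ^ n + 4 * 5 ^ (2 * n) + C → ∀ a : ℕ, a ≤ a₂ + a₃ →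
      ∀ X : ℝ, 0 ≤ X → (Cst * κ) * D ^ a * X ≤ c * L * X := by
    intro κ hκ0 hκ a ha X hX
    have h1 := hDp a ha
    have h2 : Cst * κ ≤ c := mul_le_mul_of_nonneg_left hκ hCst
    have h3 : 0 ≤ D ^ a := by positivity
    gcongr
  refine numC (n := n) (η := η) (ε := ε) (δ := δ) (c := c) (t := t) (T := W) (L := L) (p := p)
    (E₀ := E₀) (E' := E') (DS := DS) (DR := DR) (DB := DB) (σ₁ := σ₁) (σ₂ := σ₂)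
    (e := σ₁ + σ₂) hη hε hεη hδ hc0 htr hct hW0 (hW.trans hβM) hL1 hL hp hE₀ hE'' hσ₁ hσ₂
    (by omega) hsplit ?_ ?_ ?_
  · refine (hDS.trans (ds_of_nat hσ₁ hη.le htr hC hCst hD0' hW0 hN hG₁)).trans ?_
    exact hcL _ (by positivity) (by nlinarith [pow_pos (show (0:ℝ) < 5 by norm_num) (2 * n)])
      a₂ (by omega) _ (by positivity)
  · refine (hDR.trans (ds_of_nat hσ₂ hη.le htr hC hCst hD0' hW0 hN hG₂)).trans ?_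
    exact hcL _ (by positivity) (by nlinarith [pow_pos (show (0:ℝ) < 5 by norm_num) (2 * n)])
      a₂ (by omega) _ (by positivity)
  · refine (hDB.trans (db_of_nat hσ₁ hσ₂ hη.le htr hCst hD0' hW0)).trans ?_
    have h9 : (0 : ℝ) ≤ 9 ^ n := by positivity
    refine hcL (4 * 5 ^ (2 * n)) (by positivity) (by linarith) a₃ (by omega) _ (by positivity)

end Vale.Agent.P054.T2.H83
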