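import Vale.Agent.P054.T2.H83.Gseam
import Vale.Agent.P054.T2.H981.ProdSide
import Vale.Agent.P054.T2.H580.Hat

set_option autoImplicit false
set_option linter.all false

/-!
# P054 / T2, [GSEAM] part 2: the exceptional sets at the level of `Z⁺`

`bd_hw₂`, `bd_hw₁`, `bd_ste` are the hypotheses `hBd` of [G*] (701) for the three exceptional sets;
`exists_gseam` puts them together, and `resS`, `EdgeS`/`Ste` under restriction of the edge set.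
-/

namespace Vale.Agent.P054.T2.H83

open MvPolynomial Finset Module
open SecC
open H686 (mu meet Qf Bf QP linP crd vec1 Crd)
open H580 (Vw)
open H930 (germ edgePt hatPt j1 j2 Pt ptc)

variable {n : ℕ}

/-- polynomials of degree `≤ a` in variables of weight `≤ W` -/
theorem rename_mem_Vw_le {σ τ : Type*} (w : σ → ℕ) (j : τ → σ) {W a : ℕ}
    (hw : ∀ i, w (j i) ≤ W) {F : MvPolynomial τ ℝ} (hF : F.totalDegree ≤ a) :
    rename j F ∈ Vw ℝ w (a * W) := by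
  classical
  refine H580.rename_mem_Vw_of_weight w (w ∘ j) j (fun _ => rfl) ?_
  rw [H580.mem_Vw]
  intro m hm
  have h1 : m.degree ≤ a := by
    have h2 := le_totalDegree hm
    rw [Finsupp.degree_apply]
    exact h2.trans hF
  calc Finsupp.weight (w ∘ j) m = ∑ i ∈ m.support, m i * (w ∘ j) i := by
        rw [Finsupp.weight_apply, Finsupp.sum]
        exact Finset.sum_congr rfl fun i _ => by rw [smul_eq_mul]
    _ ≤ ∑ i ∈ m.support, m i * W := Finset.sum_le_sum fun i _ => Nat.mul_le_mul_left _ (hw i)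
    _ = m.degree * W := by rw [Finsupp.degree_apply, Finset.sum_mul]
    _ ≤ a * W := Nat.mul_le_mul_right _ h1

/-! ### the sides on a smaller set of edges -/

theorem swp_mono {A A' : Finset (ZZ n × ZZ n)} (h : A' ⊆ A) : swp A' ⊆ swp A := by
  intro e he
  exact mem_swp.2 (h (mem_swp.1 he))

/-- restriction of a side to a smaller set of edges -/
def resS {A : Finset (ZZ n × ZZ n)} {W D σ v : ℕ} (S : Side n A W D σ v)
    {A' : Finset (ZZ n × ZZ n)} (h : A' ⊆ A) : Side n A' W D σ v where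
  hW := S.hW
  hD := S.hD
  hσ := S.hσ
  hσ1 := S.hσ1
  hv := S.hv
  f := S.f
  F := S.F
  hleft := S.hleft
  hfdeg := S.hfdeg
  hFdeg := S.hFdeg
  hne := fun e he => S.hne e (h he)
  hQ := fun e he => S.hQ e (h he)
  hzero := fun e he => S.hzero e (h he)
  hind := fun e he => S.hind e (h he)
  hindf := fun e he => S.hindf e (h he)
  hindr := fun e he => S.hindr e (h he)
  hinc := fun e he => S.hinc e (h he)
  hincQ := fun e he => S.hincQ e (h he)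

theorem edgeS_res {A : Finset (ZZ n × ZZ n)} {W D σ v : ℕ} {S : Side n A W D σ v}
    {A' : Finset (ZZ n × ZZ n)} (h : A' ⊆ A) {e : ZZ n × ZZ n} (hE : EdgeS S e) :
    EdgeS (resS S h) e := ⟨hE.geni, hE.geniw, hE.genw, hE.genww⟩

theorem edgeB_res {A : Finset (ZZ n × ZZ n)} {W D σ₁ σ₂ v₁ v₂ : ℕ} {S₁ : Side n A W D σ₁ v₂}
    {S₂ : Side n (swp A) W D σ₂ v₁} {A' : Finset (ZZ n × ZZ n)} (h : A' ⊆ A) {e : ZZ n × ZZ n}
    (hE : EdgeB S₁ S₂ e) : EdgeB (resS S₁ h) (resS S₂ (swp_mono h)) e :=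
  ⟨edgeS_res h hE.side₁, edgeS_res _ hE.side₂, hE.hperp, hE.hw₁, hE.hw₂, hE.ste, hE.vertN,
    hE.vertA₁, hE.vertA₂⟩

/-! ### the exceptional sets -/

theorem hatPt_comp_inr (s : ZZ n) (u : Fin n → ℝ) :
    hatPt s u ∘ (Sum.inr : ZI n → Crd n ⊕ Pt n) = pt s := by
  funext x
  rfl

theorem hatPt_comp_inl_inl (s : ZZ n) (u : Fin n → ℝ) :
    hatPt s u ∘ (fun i => (Sum.inl (Sum.inl i) : Crd n ⊕ Pt n)) = u := by
  funext x
  rfl

theorem j1_comp_inr : j1 n ∘ (Sum.inr : ZI n → Crd n ⊕ Pt n) =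
    fun x => Sum.inr (Sum.inl x) := by
  funext x
  rfl

theorem j2_comp_inr : j2 n ∘ (Sum.inr : ZI n → Crd n ⊕ Pt n) =
    fun x => Sum.inr (Sum.inr x) := by
  funext x
  rfl

theorem j1_comp_inl_inl : j1 n ∘ (fun i => (Sum.inl (Sum.inl i) : Crd n ⊕ Pt n)) =
    fun i => Sum.inl (Sum.inl i) := by
  funext x
  rfl

/-- the weights `1` on `g`, `W` on the point -/
def wP (n W : ℕ) : Crd n ⊕ Pt n → ℕ := Sum.elim (fun _ => 1) (fun _ => W)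

theorem inr_mem (W : ℕ) {φ : MvPolynomial (ZI n) ℝ} (h : φ.totalDegree ≤ 1) :
    rename (Sum.inr : ZI n → Crd n ⊕ Pt n) φ ∈ Vw ℝ (wP n W) (2 * W) :=
  rename_mem_Vw_le (wP n W) Sum.inr (W := W) (a := 2) (fun i => le_of_eq rfl)
    (h.trans one_le_two)

theorem inl_mem {W : ℕ} (hW : 1 ≤ W) {φ : MvPolynomial (Fin n) ℝ} (h : φ.totalDegree ≤ 2) :
    rename (fun i => (Sum.inl (Sum.inl i) : Crd n ⊕ Pt n)) φ ∈ Vw ℝ (wP n W) (2 * W) :=
  rename_mem_Vw_le (wP n W) (fun i => (Sum.inl (Sum.inl i) : Crd n ⊕ Pt n)) (W := W) (a := 2)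
    (fun i => hW) h

section Z

variable {A : Finset (ZZ n × ZZ n)} {W D σ₁ σ₂ v₁ v₂ c : ℕ}
  (S₁ : Side n A W D σ₁ v₂) (S₂ : Side n (swp A) W D σ₂ v₁)
  (F : Fin c → MvPolynomial (Crd n ⊕ (Pt n ⊕ Pt n)) ℝ)
  (hK1 : ∀ e ∈ A, ∀ G : MvPolynomial (ZI n) ℝ,
    rename (fun x => Sum.inr (Sum.inr x)) G ∈ germ (edgePt e.1 e.2) F ↔ G ∈ S₁.Pr e)
  (hK2 : ∀ e ∈ A, ∀ G : MvPolynomial (ZI n) ℝ,
    rename (fun x => Sum.inr (Sum.inl x)) G ∈ germ (edgePt e.1 e.2) F ↔ G ∈ S₂.Pr e.swap)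

/-- the class data -/
theorem class_data {S₁ : Side n A W D σ₁ v₂} {S₂ : Side n (swp A) W D σ₂ v₁}
    {F : Fin c → MvPolynomial (Crd n ⊕ (Pt n ⊕ Pt n)) ℝ}
    (hK1 : ∀ e ∈ A, ∀ G : MvPolynomial (ZI n) ℝ,
      rename (fun x => Sum.inr (Sum.inr x)) G ∈ germ (edgePt e.1 e.2) F ↔ G ∈ S₁.Pr e)
    (hK2 : ∀ e ∈ A, ∀ G : MvPolynomial (ZI n) ℝ,
      rename (fun x => Sum.inr (Sum.inl x)) G ∈ germ (edgePt e.1 e.2) F ↔ G ∈ S₂.Pr e.swap)
    {e e' : ZZ n × ZZ n} (he : e ∈ A) (he' : e' ∈ A)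
    (h : germ (edgePt e'.1 e'.2) F = germ (edgePt e.1 e.2) F) :
    S₁.V e' = S₁.V e ∧ S₂.V e'.swap = S₂.V e.swap ∧ e'.2 - e.2 ∈ S₁.V e ∧
      e'.1 - e.1 ∈ S₂.V e.swap := by
  have h1 : S₁.Pr e = S₁.Pr e' := by
    ext G
    rw [← hK1 e he G, ← hK1 e' he' G, h]
  have h2 : S₂.Pr e.swap = S₂.Pr e'.swap := by
    ext G
    rw [← hK2 e he G, ← hK2 e' he' G, h]
  have hes : e.swap ∈ swp A := mem_swp.2 (by simpa using he)
  have hes' : e'.swap ∈ swp A := mem_swp.2 (by simpa using he')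
  exact ⟨(H981.V_eq_of_Pr S₁ he he' h1).symm, (H981.V_eq_of_Pr S₂ hes hes' h2).symm,
    H981.sub_mem_V_of_Pr S₁ he' h1, H981.sub_mem_V_of_Pr S₂ hes' h2⟩

include hK1 hK2

/-- **the exceptional set of `hw₂`** -/
theorem bd_hw₂ (e : ZZ n × ZZ n) (he : e ∈ A) (hw : e.1 - e.2 ∈ S₁.V e)
    (hn : ¬ S₂.V e.swap ≤ S₁.V e) :
    ∃ φ ∈ Vw ℝ (wP n W) (2 * W),
      (∀ e' ∈ A, e'.1 - e'.2 ∈ S₁.V e' → germ (edgePt e'.1 e'.2) F = germ (edgePt e.1 e.2) F →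
        eval (hatPt e'.1 (mu e'.1 e'.2)) φ = 0) ∧
      rename (j1 n) φ ∉ germ (edgePt e.1 e.2) F := by
  obtain ⟨φ, hdeg, hnot, hzero⟩ := gseam_hw₂ S₁ S₂ hw hn
  refine ⟨rename Sum.inr φ, inr_mem W hdeg, ?_, ?_⟩
  · intro e' he' hw' h
    obtain ⟨h1, -, h3, -⟩ := class_data hK1 hK2 he he' h
    rw [eval_rename, hatPt_comp_inr]
    exact hzero e' h1 h3 hw'
  · intro hmem
    rw [rename_rename, j1_comp_inr] at hmem
    exact hnot ((hK2 e he φ).1 hmem)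

/-- **the exceptional set of `hw₁`** -/
theorem bd_hw₁ (e : ZZ n × ZZ n) (he : e ∈ A) (hw : e.1 - e.2 ∈ S₂.V e.swap)
    (hn : ¬ S₁.V e ≤ S₂.V e.swap) :
    ∃ φ ∈ Vw ℝ (wP n W) (2 * W),
      (∀ e' ∈ A, e'.1 - e'.2 ∈ S₂.V e'.swap →
        germ (edgePt e'.1 e'.2) F = germ (edgePt e.1 e.2) F →
        eval (hatPt e'.2 (mu e'.2 e'.1)) φ = 0) ∧
      rename (j2 n) φ ∉ germ (edgePt e.1 e.2) F := by
  obtain ⟨φ, hdeg, hnot, hzero⟩ := gseam_hw₁ S₁ S₂ hw hn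
  refine ⟨rename Sum.inr φ, inr_mem W hdeg, ?_, ?_⟩
  · intro e' he' hw' h
    obtain ⟨-, h2, -, h4⟩ := class_data hK1 hK2 he he' h
    rw [eval_rename, hatPt_comp_inr]
    exact hzero e' h2 h4 hw'
  · intro hmem
    rw [rename_rename, j2_comp_inr] at hmem
    exact hnot ((hK1 e he φ).1 hmem)

/-- **the exceptional set of `ste`**, at the level of `Z⁺`, for every `v₂` -/
theorem bd_ste (hu : ∀ e ∈ A, ∀ G : MvPolynomial (Fin n) ℝ,
      rename (fun i => (Sum.inl (Sum.inl i) : Crd n ⊕ (Pt n ⊕ Pt n))) G ∈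
        germ (edgePt e.1 e.2) F → rename (R := ℝ) Sum.inl G ∈ S₁.P e)
    (e : ZZ n × ZZ n) (he : e ∈ A) (hn : ¬ Ste S₁ e) :
    ∃ φ ∈ Vw ℝ (wP n W) (2 * W),
      (∀ e' ∈ A, ¬ Ste S₁ e' → germ (edgePt e'.1 e'.2) F = germ (edgePt e.1 e.2) F →
        eval (hatPt e'.1 (mu e'.1 e'.2)) φ = 0) ∧
      rename (j1 n) φ ∉ germ (edgePt e.1 e.2) F := by
  obtain ⟨φ, hdeg, hnot, hzero⟩ := gseam_ste S₁ he hn
  refine ⟨rename (fun i => (Sum.inl (Sum.inl i) : Crd n ⊕ Pt n)) φ, inl_mem S₁.hW hdeg, ?_, ?_⟩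
  · intro e' he' hn' h
    obtain ⟨h1, -, -, -⟩ := class_data hK1 hK2 he he' h
    rw [eval_rename, hatPt_comp_inl_inl]
    exact hzero e' he' h1 hn'
  · intro hmem
    rw [rename_rename, j1_comp_inl_inl] at hmem
    exact hnot (hu e he φ hmem)

end Z

end Vale.Agent.P054.T2.H83
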