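import Vale.Agent.P054.T2.H83.GseamZ
import Vale.Agent.P054.T2.H192.KSideZ
import Vale.Agent.P054.T2.H794.Leaves

set_option autoImplicit false
set_option linter.all false

/-!
# P054 / T2, [GSEAM] part 3: [G*] (`H794.GStarS`) gives `hw₁`, `hw₂`, `ste` off a small set
-/

namespace Vale.Agent.P054.T2.H83

open MvPolynomial Finset Module
open SecC
open H686 (mu meet Qf Bf QP linP crd vec1 Crd)
open H580 (Vw)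
open H930 (germ edgePt hatPt j1 j2 Pt ptc ZData)
open H307 (wB xH1 xH2)

variable {n : ℕ}

/-- the `u`-part of the prime of `Z⁺` lies in the prime of the hat leaf -/
theorem u_part {c c' : ℕ} {e : ZZ n × ZZ n} {F : Fin c → MvPolynomial (Crd n ⊕ (Pt n ⊕ Pt n)) ℝ}
    {F' : Fin c' → MvPolynomial (HL n) ℝ}
    (h : ∀ i, H192.thS e.1 (F i) ∈ germ (hx e.1 e.2) F') (G : MvPolynomial (Fin n) ℝ)
    (hG : rename (fun i => (Sum.inl (Sum.inl i) : Crd n ⊕ (Pt n ⊕ Pt n))) G ∈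
      germ (edgePt e.1 e.2) F) : rename (R := ℝ) Sum.inl G ∈ germ (hx e.1 e.2) F' := by
  have h1 : germ (edgePt e.1 e.2) F ≤ (germ (hx e.1 e.2) F').comap (H192.thS e.1) :=
    H930.germ_le_comap (H192.thS e.1) (fun P => H192.eval_thS e.1 e.2 P) h
  have h2 := h1 hG
  rw [Ideal.mem_comap] at h2
  have h3 : (H192.thS e.1 : MvPolynomial (Crd n ⊕ (Pt n ⊕ Pt n)) ℝ →ₐ[ℝ] _).comp
      (rename (fun i => (Sum.inl (Sum.inl i) : Crd n ⊕ (Pt n ⊕ Pt n)))) =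
      (rename (R := ℝ) (Sum.inl : Fin n → HL n)) := by
    apply algHom_ext
    intro i
    rw [AlgHom.comp_apply, rename_X, rename_X, H192.thS, aeval_X]
    show rename Sum.inl (H686.pull e.1 (X (Sum.inl i))) = X (Sum.inl i)
    simp [H686.pull]
  have h4 := congrArg (fun φ : MvPolynomial (Fin n) ℝ →ₐ[ℝ] MvPolynomial (HL n) ℝ => φ G) h3
  simp only [AlgHom.comp_apply] at h4
  rw [← h4]
  exact h2

variable {A E' E1 E2 : Finset (ZZ n × ZZ n)} {W N D c₀ c₁ c₂ s₁ s₂ σ₁ σ₂ v₁ v₂ : ℕ}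

/-- the hypothesis of [G*] for the exceptional set of `hw₂` -/
theorem bdx_hw₂ (S₁ : Side n A W D σ₁ v₂) (S₂ : Side n (swp A) W D σ₂ v₁)
    (Z : ZData ℝ n E' E1 E2 (wB W) N c₀ c₁ c₂ s₁ s₂)
    (hK1 : ∀ e ∈ A, ∀ G : MvPolynomial (ZI n) ℝ,
      rename (fun x => Sum.inr (Sum.inr x)) G ∈ germ (edgePt e.1 e.2) Z.F ↔ G ∈ S₁.Pr e)
    (hK2 : ∀ e ∈ A, ∀ G : MvPolynomial (ZI n) ℝ,
      rename (fun x => Sum.inr (Sum.inl x)) G ∈ germ (edgePt e.1 e.2) Z.F ↔ G ∈ S₂.Pr e.swap)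
    (Bd : Finset (ZZ n × ZZ n)) (hBA : Bd ⊆ A)
    (hBd : ∀ e ∈ Bd, e.1 - e.2 ∈ S₁.V e ∧ ¬ S₂.V e.swap ≤ S₁.V e) :
    ∀ e ∈ Bd, ∃ φ ∈ Vw ℝ (wB W) (2 * W),
      (∀ e' ∈ Bd, germ (edgePt e'.1 e'.2) Z.F = germ (edgePt e.1 e.2) Z.F →
        eval (xH1 e') φ = 0) ∧
      rename (j1 n) φ ∉ germ (edgePt e.1 e.2) Z.F := by
  intro e he
  obtain ⟨φ, h1, h2, h3⟩ := bd_hw₂ S₁ S₂ Z.F hK1 hK2 e (hBA he) (hBd e he).1 (hBd e he).2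
  exact ⟨φ, h1, fun e' he' h => h2 e' (hBA he') (hBd e' he').1 h, h3⟩

/-- the hypothesis of [G*] for the exceptional set of `hw₁` -/
theorem bdx_hw₁ (S₁ : Side n A W D σ₁ v₂) (S₂ : Side n (swp A) W D σ₂ v₁)
    (Z : ZData ℝ n E' E1 E2 (wB W) N c₀ c₁ c₂ s₁ s₂)
    (hK1 : ∀ e ∈ A, ∀ G : MvPolynomial (ZI n) ℝ,
      rename (fun x => Sum.inr (Sum.inr x)) G ∈ germ (edgePt e.1 e.2) Z.F ↔ G ∈ S₁.Pr e)
    (hK2 : ∀ e ∈ A, ∀ G : MvPolynomial (ZI n) ℝ,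
      rename (fun x => Sum.inr (Sum.inl x)) G ∈ germ (edgePt e.1 e.2) Z.F ↔ G ∈ S₂.Pr e.swap)
    (Bd : Finset (ZZ n × ZZ n)) (hBA : Bd ⊆ A)
    (hBd : ∀ e ∈ Bd, e.1 - e.2 ∈ S₂.V e.swap ∧ ¬ S₁.V e ≤ S₂.V e.swap) :
    ∀ e ∈ Bd, ∃ φ ∈ Vw ℝ (wB W) (2 * W),
      (∀ e' ∈ Bd, germ (edgePt e'.1 e'.2) Z.F = germ (edgePt e.1 e.2) Z.F →
        eval (xH2 e') φ = 0) ∧
      rename (j2 n) φ ∉ germ (edgePt e.1 e.2) Z.F := by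
  intro e he
  obtain ⟨φ, h1, h2, h3⟩ := bd_hw₁ S₁ S₂ Z.F hK1 hK2 e (hBA he) (hBd e he).1 (hBd e he).2
  refine ⟨φ, h1, fun e' he' h => ?_, h3⟩
  have h4 : xH2 e' = hatPt e'.2 (mu e'.2 e'.1) := by
    have h5 : meet e'.1 e'.2 = meet e'.2 e'.1 :=
      H686.meet_comm (S₁.hne e' (hBA he')) (S₁.hQ e' (hBA he'))
    unfold xH2 hatPt
    rw [h5]
    rfl
  rw [h4]
  exact h2 e' (hBA he') (hBd e' he').1 h

/-- the hypothesis of [G*] for the exceptional set of `ste` -/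
theorem bdx_ste (S₁ : Side n A W D σ₁ v₂) (S₂ : Side n (swp A) W D σ₂ v₁)
    (Z : ZData ℝ n E' E1 E2 (wB W) N c₀ c₁ c₂ s₁ s₂)
    (hK1 : ∀ e ∈ A, ∀ G : MvPolynomial (ZI n) ℝ,
      rename (fun x => Sum.inr (Sum.inr x)) G ∈ germ (edgePt e.1 e.2) Z.F ↔ G ∈ S₁.Pr e)
    (hK2 : ∀ e ∈ A, ∀ G : MvPolynomial (ZI n) ℝ,
      rename (fun x => Sum.inr (Sum.inl x)) G ∈ germ (edgePt e.1 e.2) Z.F ↔ G ∈ S₂.Pr e.swap)
    (hthS : ∀ e ∈ A, ∀ i, H192.thS e.1 (Z.F i) ∈ germ (hx e.1 e.2) (S₁.F e.1))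
    (Bd : Finset (ZZ n × ZZ n)) (hBA : Bd ⊆ A) (hBd : ∀ e ∈ Bd, ¬ Ste S₁ e) :
    ∀ e ∈ Bd, ∃ φ ∈ Vw ℝ (wB W) (2 * W),
      (∀ e' ∈ Bd, germ (edgePt e'.1 e'.2) Z.F = germ (edgePt e.1 e.2) Z.F →
        eval (xH1 e') φ = 0) ∧
      rename (j1 n) φ ∉ germ (edgePt e.1 e.2) Z.F := by
  intro e he
  obtain ⟨φ, h1, h2, h3⟩ := bd_ste S₁ S₂ Z.F hK1 hK2
    (fun e he G hG => u_part (hthS e he) G hG) e (hBA he) (hBd e he)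
  exact ⟨φ, h1, fun e' he' h => h2 e' (hBA he') (hBd e' he') h, h3⟩

/-- **[GSEAM]**: `hw₁`, `hw₂` and `Ste S₁` hold off a set of at most `3/64 |E'|` edges -/
theorem gseam (S₁ : Side n A W D σ₁ v₂) (S₂ : Side n (swp A) W D σ₂ v₁)
    (Z : ZData ℝ n E' E1 E2 (wB W) N c₀ c₁ c₂ s₁ s₂) (hA : A ⊆ E2)
    (hK1 : ∀ e ∈ A, ∀ G : MvPolynomial (ZI n) ℝ,
      rename (fun x => Sum.inr (Sum.inr x)) G ∈ germ (edgePt e.1 e.2) Z.F ↔ G ∈ S₁.Pr e)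
    (hK2 : ∀ e ∈ A, ∀ G : MvPolynomial (ZI n) ℝ,
      rename (fun x => Sum.inr (Sum.inl x)) G ∈ germ (edgePt e.1 e.2) Z.F ↔ G ∈ S₂.Pr e.swap)
    (hthS : ∀ e ∈ A, ∀ i, H192.thS e.1 (Z.F i) ∈ germ (hx e.1 e.2) (S₁.F e.1))
    (hg1 : ∀ Bd ⊆ E2, (∀ e ∈ Bd, ∃ φ ∈ Vw ℝ (wB W) (2 * W),
      (∀ e' ∈ Bd, germ (edgePt e'.1 e'.2) Z.F = germ (edgePt e.1 e.2) Z.F →
        eval (xH1 e') φ = 0) ∧
      rename (j1 n) φ ∉ germ (edgePt e.1 e.2) Z.F) → 64 * Bd.card ≤ E'.card)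
    (hg2 : ∀ Bd ⊆ E2, (∀ e ∈ Bd, ∃ φ ∈ Vw ℝ (wB W) (2 * W),
      (∀ e' ∈ Bd, germ (edgePt e'.1 e'.2) Z.F = germ (edgePt e.1 e.2) Z.F →
        eval (xH2 e') φ = 0) ∧
      rename (j2 n) φ ∉ germ (edgePt e.1 e.2) Z.F) → 64 * Bd.card ≤ E'.card) :
    ∃ Y ⊆ A, 64 * Y.card ≤ 3 * E'.card ∧ ∀ e ∈ A, e ∉ Y →
      (e.1 - e.2 ∈ S₂.V e.swap → S₁.V e ≤ S₂.V e.swap) ∧
      (e.1 - e.2 ∈ S₁.V e → S₂.V e.swap ≤ S₁.V e) ∧ Ste S₁ e := by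
  classical
  set Y₁ := A.filter fun e => e.1 - e.2 ∈ S₂.V e.swap ∧ ¬ S₁.V e ≤ S₂.V e.swap with hY₁
  set Y₂ := A.filter fun e => e.1 - e.2 ∈ S₁.V e ∧ ¬ S₂.V e.swap ≤ S₁.V e with hY₂
  set Y₃ := A.filter fun e => ¬ Ste S₁ e with hY₃
  have h1 : 64 * Y₁.card ≤ E'.card := hg2 Y₁ ((Finset.filter_subset _ _).trans hA)
    (bdx_hw₁ S₁ S₂ Z hK1 hK2 Y₁ (Finset.filter_subset _ _) fun e he => (Finset.mem_filter.1 he).2)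
  have h2 : 64 * Y₂.card ≤ E'.card := hg1 Y₂ ((Finset.filter_subset _ _).trans hA)
    (bdx_hw₂ S₁ S₂ Z hK1 hK2 Y₂ (Finset.filter_subset _ _) fun e he => (Finset.mem_filter.1 he).2)
  have h3 : 64 * Y₃.card ≤ E'.card := hg1 Y₃ ((Finset.filter_subset _ _).trans hA)
    (bdx_ste S₁ S₂ Z hK1 hK2 hthS Y₃ (Finset.filter_subset _ _)
      fun e he => (Finset.mem_filter.1 he).2)
  refine ⟨Y₁ ∪ Y₂ ∪ Y₃, ?_, ?_, ?_⟩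
  · exact Finset.union_subset (Finset.union_subset (Finset.filter_subset _ _)
      (Finset.filter_subset _ _)) (Finset.filter_subset _ _)
  · have h4 := Finset.card_union_le (Y₁ ∪ Y₂) Y₃
    have h5 := Finset.card_union_le Y₁ Y₂
    omega
  · intro e he hne
    rw [Finset.mem_union, Finset.mem_union, not_or, not_or] at hne
    obtain ⟨⟨hn1, hn2⟩, hn3⟩ := hne
    refine ⟨fun hw => ?_, fun hw => ?_, ?_⟩
    · by_contra hc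
      exact hn1 (Finset.mem_filter.2 ⟨he, hw, hc⟩)
    · by_contra hc
      exact hn2 (Finset.mem_filter.2 ⟨he, hw, hc⟩)
    · by_contra hc
      exact hn3 (Finset.mem_filter.2 ⟨he, hc⟩)

end Vale.Agent.P054.T2.H83
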