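import Vale.Agent.P054.T2.H83.Ste
import Vale.Agent.P054.T2.H428.EdgeB

set_option autoImplicit false
set_option linter.all false

/-!
# P054 / T2, [GSEAM]: the exceptional sets of the fields `hw₁`, `hw₂`, `ste` of `EdgeB`

At an edge where one of the fields fails there is a polynomial of degree at most `2` (in `s`, in
`r`, resp. in `u`) outside the prime of the class which vanishes at all edges of the same class where
the field fails.
-/

namespace Vale.Agent.P054.T2.H83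

open MvPolynomial Finset Module
open SecC
open H686 (mu Qf Bf QP linP crd vec1)

variable {n : ℕ}

theorem totalDegree_linL (l : ZZ n →ₗ[ℝ] ℝ) (r₀ : ZZ n) : (linL l r₀).totalDegree ≤ 1 := by
  unfold linL
  refine (totalDegree_sub _ _).trans (max_le ((totalDegree_add _ _).trans (max_le ?_ ?_)) ?_)
  · refine (totalDegree_finset_sum _ _).trans (Finset.sup_le fun i _ => ?_)
    refine (totalDegree_mul _ _).trans ?_
    rw [totalDegree_C, zero_add]
    exact (totalDegree_X _).le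
  · refine (totalDegree_finset_sum _ _).trans (Finset.sup_le fun i _ => ?_)
    refine (totalDegree_mul _ _).trans ?_
    rw [totalDegree_C, zero_add]
    exact (totalDegree_X _).le
  · rw [totalDegree_C]
    exact Nat.zero_le _

theorem linL_congr {l : ZZ n →ₗ[ℝ] ℝ} {r₀ r₁ : ZZ n} (h : l r₀ = l r₁) :
    linL l r₀ = linL l r₁ := by
  unfold linL
  rw [h]

/-- a functional that kills `U` but not `U'` -/
theorem exists_sep_functional {U U' : Submodule ℝ (ZZ n)} (h : ¬ U' ≤ U) :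
    ∃ l : ZZ n →ₗ[ℝ] ℝ, (∀ x ∈ U, l x = 0) ∧ ∃ x ∈ U', l x ≠ 0 := by
  obtain ⟨x, hx, hxU⟩ := Set.not_subset.1 h
  obtain ⟨f, hf, hf'⟩ := Submodule.exists_le_ker_of_notMem hxU
  exact ⟨f, fun y hy => hf' hy, x, hx, hf⟩

variable {A : Finset (ZZ n × ZZ n)} {W D σ₁ σ₂ v₁ v₂ : ℕ} {κ : Type*}

/-- **`hw₂`**: `s ∈ r + V₂` without `V₁ ≤ V₂` -/
theorem gseam_hw₂ (S₁ : Side n A W D σ₁ v₂) (S₂ : Side n (swp A) W D σ₂ v₁) {e : ZZ n × ZZ n}
    (hw : e.1 - e.2 ∈ S₁.V e) (hn : ¬ S₂.V e.swap ≤ S₁.V e) :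
    ∃ φ : MvPolynomial (ZI n) ℝ, φ.totalDegree ≤ 1 ∧ φ ∉ S₂.Pr e.swap ∧
      ∀ e' : ZZ n × ZZ n, S₁.V e' = S₁.V e → e'.2 - e.2 ∈ S₁.V e → e'.1 - e'.2 ∈ S₁.V e' →
        eval (pt e'.1) φ = 0 := by
  obtain ⟨l, hl, x, hx, hlx⟩ := exists_sep_functional hn
  refine ⟨linL l e.2, totalDegree_linL _ _, ?_, ?_⟩
  · intro hmem
    have h1 : linL l e.2 = linL l e.swap.2 := by
      refine linL_congr ?_
      have h2 := hl _ hw
      rw [map_sub] at h2
      show l e.2 = l e.1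
      linarith
    rw [h1] at hmem
    exact hlx (S₂.mem_V.1 hx l hmem)
  · intro e' hV hr hw'
    rw [hV] at hw'
    rw [eval_linL]
    have h3 := hl _ ((S₁.V e).add_mem hw' hr)
    have h4 : e'.1 - e'.2 + (e'.2 - e.2) = e'.1 - e.2 := by abel
    rw [h4, map_sub] at h3
    exact h3

/-- **`hw₁`**: `r ∈ s + V₁` without `V₂ ≤ V₁` -/
theorem gseam_hw₁ (S₁ : Side n A W D σ₁ v₂) (S₂ : Side n (swp A) W D σ₂ v₁) {e : ZZ n × ZZ n}
    (hw : e.1 - e.2 ∈ S₂.V e.swap) (hn : ¬ S₁.V e ≤ S₂.V e.swap) :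
    ∃ φ : MvPolynomial (ZI n) ℝ, φ.totalDegree ≤ 1 ∧ φ ∉ S₁.Pr e ∧
      ∀ e' : ZZ n × ZZ n, S₂.V e'.swap = S₂.V e.swap → e'.1 - e.1 ∈ S₂.V e.swap →
        e'.1 - e'.2 ∈ S₂.V e'.swap → eval (pt e'.2) φ = 0 := by
  obtain ⟨l, hl, x, hx, hlx⟩ := exists_sep_functional hn
  refine ⟨linL l e.1, totalDegree_linL _ _, ?_, ?_⟩
  · intro hmem
    have h1 : linL l e.1 = linL l e.2 := by
      refine linL_congr ?_
      have h2 := hl _ hw
      rw [map_sub] at h2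
      linarith
    rw [h1] at hmem
    exact hlx (S₁.mem_V.1 hx l hmem)
  · intro e' hV hs hw'
    rw [hV] at hw'
    rw [eval_linL]
    have h3 := hl _ ((S₂.V e.swap).sub_mem hs hw')
    have h4 : e'.1 - e.1 - (e'.1 - e'.2) = e'.2 - e.1 := by abel
    rw [h4, map_sub] at h3
    exact h3

/-- `Ste` fails only where `QP G` vanishes -/
theorem eval_QP_of_not_ste (S : Side n A W D σ₁ v₂) {e : ZZ n × ZZ n} (he : e ∈ A)
    (hn : ¬ Ste S e) {G : (Fin (n + 1) → ℝ) →ₗ[ℝ] ZZ n} (hGV : ∀ v, G v ∈ S.V e)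
    (hG : ∀ v, (G v).1 = v) : eval (mu e.1 e.2) (QP G) = 0 := by
  unfold Ste at hn
  push Not at hn
  obtain ⟨hw, hfin, hinj, s', hs', hs'V, h0⟩ := hn
  have hne := S.hne e he
  have hQ : Qf (e.2 - e.1) = 0 := by
    have h3 := S.hQ e he
    have h4 : e.2 - e.1 = (-1 : ℝ) • (e.1 - e.2) := by rw [neg_one_smul, neg_sub]
    rw [h4, H686.Qf_smul, h3, mul_zero]
  have h1 : e.2 - s' ∈ S.V e := by
    have h2 : e.2 - s' = -(s' - e.2) := by abel
    rw [h2]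
    exact Submodule.neg_mem _ hs'V
  have h2 := ste_val hs' hinj hGV hG h1 hne hQ
  rw [h0] at h2
  have h3 : (e.2.1 0 - e.1.1 0) ^ 2 ≠ 0 := pow_ne_zero _ (sub_ne_zero.2 (Ne.symm hne))
  have h4 : (e.2.1 0 - e.1.1 0) ^ 2 * eval (mu e.1 e.2) (QP G) = 0 := by linarith
  exact (mul_eq_zero.1 h4).resolve_left h3

/-- **`ste`** -/
theorem gseam_ste (S : Side n A W D σ₁ v₂) {e : ZZ n × ZZ n} (he : e ∈ A) (hn : ¬ Ste S e) :
    ∃ φ : MvPolynomial (Fin n) ℝ, φ.totalDegree ≤ 2 ∧ rename (R := ℝ) Sum.inl φ ∉ S.P e ∧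
      ∀ e' ∈ A, S.V e' = S.V e → ¬ Ste S e' → eval (mu e'.1 e'.2) φ = 0 := by
  have hn' := hn
  unfold Ste at hn'
  push Not at hn'
  obtain ⟨hw, hfin, hinj, s', hs', hs'V, h0⟩ := hn'
  obtain ⟨G, hGV, hG⟩ := H686.exists_G (S.V e) hinj hfin
  refine ⟨QP G, H686.totalDegree_QP G, ste_notMem S he hinj hGV hG hw, ?_⟩
  intro e' he' hV hne'
  exact eval_QP_of_not_ste S he' hne' (fun v => by rw [hV]; exact hGV v) hG

end Vale.Agent.P054.T2.H83
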