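import Vale.Agent.P054.T2.H686.Top

set_option autoImplicit false
set_option linter.all false

/-!
# P054 / T2, section C, [C5]: classes in isotropic flats

A class which lies in `r + V`, `V` isotropic, `dim V ≤ 2 σ`, has at most `C t^(σ + η)` elements.
-/

namespace Vale.Agent.P054.T2.H83

open Vale.Agent.P054I Vale.Agent.P054K
open Vale.Agent.P054.T2.H686

variable {n : ℕ}

theorem BB.mono {m t : ℕ} {g g' : ℝ} (h : BB m t g) (hg : g ≤ g') : BB m t g' :=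
  fun S hS => (h S hS).trans hg

/-- the bounds in all smaller dimensions, with one constant -/
theorem exists_iso_bound (N : ℕ)
    (hI : ∀ m : ℕ, 2 ≤ m → m < N → Sex m (DC m) ((m : ℝ) / 2)) (ε : ℝ) (hε : 0 < ε) :
    ∃ C : ℝ, 2 ≤ C ∧ ∀ t : ℕ, 1 ≤ t → ∀ m σ : ℕ, m < N → m ≤ 2 * σ → 1 ≤ σ →
      BB m t (C * (t : ℝ) ^ ((σ : ℝ) + ε)) := by
  have key : ∀ m : ℕ, ∃ C : ℝ, 2 ≤ C ∧ (m < N → ∀ t : ℕ, 1 ≤ t → ∀ σ : ℕ, m ≤ 2 * σ → 1 ≤ σ →
      BB m t (C * (t : ℝ) ^ ((σ : ℝ) + ε))) := by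
    intro m
    rcases Nat.lt_or_ge m 2 with hm | hm
    · refine ⟨2, le_rfl, fun _ t ht σ _ hσ => ?_⟩
      have ht1 : (1 : ℝ) ≤ t := by exact_mod_cast ht
      have hσ1 : (1 : ℝ) ≤ σ := by exact_mod_cast hσ
      have h1 : (t : ℝ) ≤ (t : ℝ) ^ ((σ : ℝ) + ε) := by
        calc (t : ℝ) = (t : ℝ) ^ (1 : ℝ) := (Real.rpow_one _).symm
          _ ≤ _ := Real.rpow_le_rpow_of_exponent_le ht1 (by linarith)
      interval_cases m
      · exact BB.mono (BB_zero t) (by linarith)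
      · exact BB.mono (BB_one t) (by linarith)
    · by_cases hmN : m < N
      · obtain ⟨C, hC, h1⟩ := BB_of_sex (hI m hm hmN) ε hε
        refine ⟨max C 2, le_max_right _ _, fun _ t ht σ hσ _ => ?_⟩
        have ht1 : (1 : ℝ) ≤ t := by exact_mod_cast ht
        refine BB.mono (h1 t ht) ?_
        have h2 : (m : ℝ) ≤ 2 * σ := by exact_mod_cast hσ
        have h3 : (t : ℝ) ^ ((m : ℝ) / 2 + ε) ≤ (t : ℝ) ^ ((σ : ℝ) + ε) :=
          Real.rpow_le_rpow_of_exponent_le ht1 (by linarith)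
        calc C * (t : ℝ) ^ ((m : ℝ) / 2 + ε) ≤ max C 2 * (t : ℝ) ^ ((m : ℝ) / 2 + ε) := by
              gcongr; exact le_max_left _ _
          _ ≤ _ := by gcongr
      · exact ⟨2, le_rfl, fun h => absurd h hmN⟩
  choose C hC2 hC using key
  refine ⟨∑ m ∈ Finset.range (N + 1), C m, ?_, fun t ht m σ hm hσ h1 => ?_⟩
  · calc (2 : ℝ) ≤ C 0 := hC2 0
      _ ≤ ∑ m ∈ Finset.range (N + 1), C m :=
        Finset.single_le_sum (f := C) (fun m _ => by linarith [hC2 m])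
          (Finset.mem_range.2 (by omega))
  · refine BB.mono (hC m hm t ht σ hσ h1) ?_
    have h2 : C m ≤ ∑ m ∈ Finset.range (N + 1), C m :=
      Finset.single_le_sum (f := C) (fun m _ => by linarith [hC2 m])
        (Finset.mem_range.2 (by omega))
    gcongr

/-- the trivial bound in an isotropic flat -/
theorem card_isotropic_le_card (P : Finset (E n)) (B : E n ≃ₗᵢ[ℝ] E n)
    (V : Submodule ℝ ((Fin (n + 1) → ℝ) × (Fin (n + 1) → ℝ)))
    (hQ : ∀ w ∈ V, Qf w = 0) (S : Finset (E n × E n)) (hS : S ⊆ P ×ˢ P)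
    (hSV : ∀ s ∈ S, ∀ s' ∈ S, zt B s - zt B s' ∈ V) : S.card ≤ P.card := by
  classical
  have hinj : Set.InjOn Prod.fst (S : Set (E n × E n)) := by
    intro s hs s' hs' h
    have h1 := hSV s hs s' hs'
    have h2 : toX (zt B s - zt B s') = 0 := by
      rw [map_sub, toX_zt, toX_zt, h, sub_self]
    have h3 := toX_injOn_isotropic hQ h1 h2
    exact zt_injective B (sub_eq_zero.1 h3)
  rw [← Finset.card_image_of_injOn hinj]
  refine Finset.card_le_card fun x hx => ?_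
  obtain ⟨s, hs, rfl⟩ := Finset.mem_image.1 hx
  exact (Finset.mem_product.1 (hS hs)).1

/-- **[C5]** a class in an isotropic flat of dimension at most `2 σ` -/
theorem card_class_iso {t : ℕ} {C ε η : ℝ} (hC2 : 2 ≤ C) (ht1 : 1 ≤ t)
    (hC : ∀ m σ : ℕ, m < n + 1 → m ≤ 2 * σ → 1 ≤ σ → BB m t (C * (t : ℝ) ^ ((σ : ℝ) + ε)))
    (hεη : ε ≤ η) (P : Finset (E n)) (B : E n ≃ₗᵢ[ℝ] E n) (ht : (dists P).card ≤ t)
    (hP : (P.card : ℝ) ≤ 2 * (t : ℝ) ^ (((n + 1 : ℕ) : ℝ) / 2 + η))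
    (V : Submodule ℝ ((Fin (n + 1) → ℝ) × (Fin (n + 1) → ℝ))) (hQ : ∀ w ∈ V, Qf w = 0)
    {σ : ℕ} (hσ : 1 ≤ σ) (hV : Module.finrank ℝ V ≤ 2 * σ)
    (cl : Finset (E n × E n)) (hcl : cl ⊆ P ×ˢ P) {z₀ : (Fin (n + 1) → ℝ) × (Fin (n + 1) → ℝ)}
    (hclV : ∀ r ∈ cl, zt B r - z₀ ∈ V) : (cl.card : ℝ) ≤ C * (t : ℝ) ^ ((σ : ℝ) + η) := by
  have htr : (1 : ℝ) ≤ t := by exact_mod_cast ht1
  have hdiff : ∀ s ∈ cl, ∀ s' ∈ cl, zt B s - zt B s' ∈ V := by
    intro s hs s' hs'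
    have := V.sub_mem (hclV s hs) (hclV s' hs')
    rwa [sub_sub_sub_cancel_right] at this
  rcases Nat.lt_or_ge (Module.finrank ℝ V) (n + 1) with h | h
  · have h1 := card_isotropic_le P B ht V rfl hQ cl hcl hdiff (hC _ σ h hV hσ)
    refine h1.trans ?_
    have h2 : (t : ℝ) ^ ((σ : ℝ) + ε) ≤ (t : ℝ) ^ ((σ : ℝ) + η) :=
      Real.rpow_le_rpow_of_exponent_le htr (by linarith)
    gcongr
  · have h1 : (cl.card : ℝ) ≤ P.card := by
      exact_mod_cast card_isotropic_le_card P B V hQ cl hcl hdiff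
    refine (h1.trans hP).trans ?_
    have h3 : ((n + 1 : ℕ) : ℝ) ≤ 2 * σ := by exact_mod_cast h.trans hV
    have h2 : (t : ℝ) ^ (((n + 1 : ℕ) : ℝ) / 2 + η) ≤ (t : ℝ) ^ ((σ : ℝ) + η) :=
      Real.rpow_le_rpow_of_exponent_le htr (by linarith)
    gcongr

end Vale.Agent.P054.T2.H83
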