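import Vale.Agent.P054.T2.H686.Frame
import Vale.Agent.P054.T2.H428.SecC

set_option autoImplicit false
set_option linter.all false

/-!
# P054 / T2, section C, [C5] in the letters of the frame (`IsoB`)
-/

namespace Vale.Agent.P054.T2.H83

open Vale.Agent.P054.T2.H686 Vale.Agent.P054.T2.SecC

variable {n : ℕ} {A : Finset (ZZ n × ZZ n)} {W D σ v : ℕ}

/-- a class inside an isotropic flat of dimension at most `2 σ` has at most `G σ` elements -/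
theorem card_cls_isoB (S : Side n A W D σ v) {P : Finset (E n)} {G : ℕ → ℕ} (hG : IsoB n P G)
    (B : E n ≃ₗᵢ[ℝ] E n) (hA : ∀ e ∈ A, e.2 ∈ (P ×ˢ P).image (zt B))
    (V : Submodule ℝ (ZZ n)) (hQ : ∀ w ∈ V, Qf w = 0) (hV : Module.finrank ℝ V ≤ 2 * σ)
    {e : ZZ n × ZZ n} {z₀ : ZZ n} (hcls : ∀ e' ∈ S.cls e, e'.2 - z₀ ∈ V) :
    (S.cls e).card ≤ G σ := by
  classical
  set cl : Finset (E n × E n) := (P ×ˢ P).filter fun s => (e.1, zt B s) ∈ S.cls e with hcl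
  have h1 : S.cls e ⊆ cl.image fun s => (e.1, zt B s) := by
    intro e' he'
    have h2 := S.mem_cls.1 he'
    obtain ⟨s, hs, hse⟩ := Finset.mem_image.1 (hA e' h2.1)
    have h3 : e' = (e.1, zt B s) := Prod.ext h2.2.1 hse.symm
    refine Finset.mem_image.2 ⟨s, ?_, h3.symm⟩
    rw [hcl, Finset.mem_filter]
    exact ⟨hs, h3 ▸ he'⟩
  refine ((Finset.card_le_card h1).trans Finset.card_image_le).trans ?_
  refine hG σ S.hσ1 B V z₀ hQ hV cl (Finset.filter_subset _ _) fun r hr => ?_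
  rw [hcl, Finset.mem_filter] at hr
  exact hcls _ hr.2

/-- **[C5]**, the first alternative of `Cnt`, with any isotropic flat -/
theorem cnt_isoB (S : Side n A W D σ v) {P : Finset (E n)} {G : ℕ → ℕ} (hG : IsoB n P G)
    (B : E n ≃ₗᵢ[ℝ] E n) (hA : ∀ e ∈ A, e.2 ∈ (P ×ˢ P).image (zt B))
    (V : Submodule ℝ (ZZ n)) (hQ : ∀ w ∈ V, Qf w = 0) (hV : Module.finrank ℝ V ≤ 2 * σ)
    {e : ZZ n × ZZ n} {z₀ : ZZ n} (hcls : ∀ e' ∈ S.cls e, e'.2 - z₀ ∈ V) (N : ℕ) :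
    S.Cnt N (G σ) e :=
  Or.inl (card_cls_isoB S hG B hA V hQ hV hcls)

/-- **[C5]** with `S.V e` itself -/
theorem cnt_isoB_V (S : Side n A W D σ v) {P : Finset (E n)} {G : ℕ → ℕ} (hG : IsoB n P G)
    (B : E n ≃ₗᵢ[ℝ] E n) (hA : ∀ e ∈ A, e.2 ∈ (P ×ˢ P).image (zt B))
    {e : ZZ n × ZZ n} (hQ : ∀ w ∈ S.V e, Qf w = 0) (hV : Module.finrank ℝ (S.V e) ≤ 2 * σ)
    (N : ℕ) : S.Cnt N (G σ) e :=
  cnt_isoB S hG B hA (S.V e) hQ hV (fun _ he' => S.sub_mem_V he') N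

/-- the same for the reversed edges -/
theorem cnt_isoB_swp (S : Side n (swp A) W D σ v) {P : Finset (E n)} {G : ℕ → ℕ}
    (hG : IsoB n P G) (B : E n ≃ₗᵢ[ℝ] E n) (hA : ∀ e ∈ A, e.1 ∈ (P ×ˢ P).image (zt B))
    {e : ZZ n × ZZ n} (hQ : ∀ w ∈ S.V e.swap, Qf w = 0)
    (hV : Module.finrank ℝ (S.V e.swap) ≤ 2 * σ) (N : ℕ) : S.Cnt N (G σ) e.swap :=
  cnt_isoB_V S hG B (fun e' he' => by simpa using hA _ (mem_swp.1 he')) hQ hV N

end Vale.Agent.P054.T2.H83
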