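import Vale.Agent.P054.T2.H83.Iso
import Vale.Agent.P054.T2.H428.SecC

set_option autoImplicit false
set_option linter.all false

/-!
# P054 / T2, section C, [C5]: classes in isotropic flats, for one side of the good edges
-/

namespace Vale.Agent.P054.T2.H83

open Vale.Agent.P054.T2.H686 Vale.Agent.P054.T2.SecC

variable {n : ℕ} {A : Finset (ZZ n × ZZ n)} {W D σ v : ℕ}

/-- the class of `e`, as pairs of points of `P` -/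
theorem card_cls_iso (S : Side n A W D σ v) {t : ℕ} {C ε η : ℝ} (hC2 : 2 ≤ C) (ht1 : 1 ≤ t)
    (hC : ∀ m σ : ℕ, m < n + 1 → m ≤ 2 * σ → 1 ≤ σ → BB m t (C * (t : ℝ) ^ ((σ : ℝ) + ε)))
    (hεη : ε ≤ η) (P : Finset (E n)) (B : E n ≃ₗᵢ[ℝ] E n) (ht : (dists P).card ≤ t)
    (hP : (P.card : ℝ) ≤ 2 * (t : ℝ) ^ (((n + 1 : ℕ) : ℝ) / 2 + η))
    (hA : ∀ e ∈ A, ∃ s ∈ P ×ˢ P, e.2 = zt B s)
    (V : Submodule ℝ (ZZ n)) (hQ : ∀ w ∈ V, Qf w = 0) (hV : Module.finrank ℝ V ≤ 2 * σ)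
    {e : ZZ n × ZZ n} {z₀ : ZZ n} (hcls : ∀ e' ∈ S.cls e, e'.2 - z₀ ∈ V) :
    ((S.cls e).card : ℝ) ≤ C * (t : ℝ) ^ ((σ : ℝ) + η) := by
  classical
  set cl : Finset (E n × E n) := (P ×ˢ P).filter fun s => (e.1, zt B s) ∈ S.cls e with hcl
  have h1 : S.cls e ⊆ cl.image fun s => (e.1, zt B s) := by
    intro e' he'
    have h2 := S.mem_cls.1 he'
    obtain ⟨s, hs, hse⟩ := hA e' h2.1
    have h3 : e' = (e.1, zt B s) := Prod.ext h2.2.1 hse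
    refine Finset.mem_image.2 ⟨s, ?_, h3.symm⟩
    rw [hcl, Finset.mem_filter]
    exact ⟨hs, h3 ▸ he'⟩
  have h2 : (S.cls e).card ≤ cl.card := (Finset.card_le_card h1).trans Finset.card_image_le
  have h3 : (cl.card : ℝ) ≤ C * (t : ℝ) ^ ((σ : ℝ) + η) := by
    refine card_class_iso hC2 ht1 hC hεη P B ht hP V hQ S.hσ1 hV cl (Finset.filter_subset _ _)
      (z₀ := z₀) fun r hr => ?_
    rw [hcl, Finset.mem_filter] at hr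
    exact hcls _ hr.2
  have h4 : ((S.cls e).card : ℝ) ≤ cl.card := by exact_mod_cast h2
  exact h4.trans h3

/-- **[C5]** the first alternative of `Cnt` -/
theorem cnt_iso (S : Side n A W D σ v) {t : ℕ} {C ε η : ℝ} (hC2 : 2 ≤ C) (ht1 : 1 ≤ t)
    (hC : ∀ m σ : ℕ, m < n + 1 → m ≤ 2 * σ → 1 ≤ σ → BB m t (C * (t : ℝ) ^ ((σ : ℝ) + ε)))
    (hεη : ε ≤ η) (P : Finset (E n)) (B : E n ≃ₗᵢ[ℝ] E n) (ht : (dists P).card ≤ t)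
    (hP : (P.card : ℝ) ≤ 2 * (t : ℝ) ^ (((n + 1 : ℕ) : ℝ) / 2 + η))
    (hA : ∀ e ∈ A, ∃ s ∈ P ×ˢ P, e.2 = zt B s)
    (V : Submodule ℝ (ZZ n)) (hQ : ∀ w ∈ V, Qf w = 0) (hV : Module.finrank ℝ V ≤ 2 * σ)
    {e : ZZ n × ZZ n} {z₀ : ZZ n} (hcls : ∀ e' ∈ S.cls e, e'.2 - z₀ ∈ V) (N : ℕ) {G : ℕ}
    (hG : ⌊C * (t : ℝ) ^ ((σ : ℝ) + η)⌋₊ ≤ G) : S.Cnt N G e :=
  Or.inl ((Nat.le_floor (card_cls_iso S hC2 ht1 hC hεη P B ht hP hA V hQ hV hcls)).trans hG)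

end Vale.Agent.P054.T2.H83
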