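import Vale.Agent.P054.T2.H82.InstSide
import Vale.Agent.P054.T2.H192.Tree

set_option autoImplicit false
set_option linter.all false

/-!
# P054 / T2, [STE]: the stereographic non-vanishing

`G` is the inverse of `ζ` on `S.V e`, `QP G` the polynomial `u ↦ Q(G(1,u))`.  On the class
`Bf (s' - s) (r - s') = - c² QP G (u)` (`ste_val`), and `QP G` is not in the prime of the hat leaf
(`ste_notMem`) if `ζ` is injective on the orthogonal complement of `S.V e` and `s ∉ r + S.V e`.
-/

namespace Vale.Agent.P054.T2.H83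

open MvPolynomial Finset Module
open SecC
open H686 (mu Qf Bf QP linP crd vec1)

variable {n : ℕ}

/-- value of `QP G` at a point of the class -/
theorem ste_val {s r s' : ZZ n} (hs' : s'.1 = s.1) {V : Submodule ℝ (ZZ n)}
    (hinj : ∀ w ∈ V, w.1 = 0 → w = 0) {G : (Fin (n + 1) → ℝ) →ₗ[ℝ] ZZ n}
    (hGV : ∀ v, G v ∈ V) (hG : ∀ v, (G v).1 = v) (hr : r - s' ∈ V) (h0 : s.1 0 ≠ r.1 0)
    (hq : Qf (r - s) = 0) :
    Bf (s' - s) (r - s') = -((r.1 0 - s.1 0) ^ 2 * eval (mu s r) (QP G)) := by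
  have h1 := H686.sub_eq_smul_vec1 h0
  set c : ℝ := r.1 0 - s.1 0 with hc
  have h2 : r - s' = c • G (vec1 (mu s r)) := by
    have h3 : (r - s') - c • G (vec1 (mu s r)) = 0 := by
      apply hinj
      · exact V.sub_mem hr (V.smul_mem _ (hGV _))
      · rw [Prod.fst_sub, Prod.fst_sub, hs', h1, Prod.smul_fst, hG, sub_self]
    exact sub_eq_zero.1 h3
  have h3 : r - s = (s' - s) + (r - s') := by abel
  have h4 : Qf (s' - s) = 0 := by
    unfold Qf
    refine Finset.sum_eq_zero fun i _ => ?_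
    rw [Prod.fst_sub, hs', sub_self]
    simp
  rw [h3, H686.Qf_add, h4, zero_add] at hq
  have h5 : Qf (r - s') = c ^ 2 * eval (mu s r) (QP G) := by
    rw [h2, H686.Qf_smul, H686.eval_QP]
  linarith

/-- `ζ(V)` is everything: a vertical vector orthogonal to `V` is zero -/
theorem eq_zero_of_perp {V : Submodule ℝ (ZZ n)} {G : (Fin (n + 1) → ℝ) →ₗ[ℝ] ZZ n}
    (hGV : ∀ v, G v ∈ V) (hG : ∀ v, (G v).1 = v) {x : ZZ n} (h : ∀ b ∈ V, Bf x b = 0)
    (hx : x.1 = 0) : x = 0 := by
  classical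
  refine Prod.ext hx (funext fun i => ?_)
  have h1 := h _ (hGV (Pi.single i 1))
  simp only [Bf, hx, hG, Pi.zero_apply, zero_mul, zero_add] at h1
  rw [Finset.sum_eq_single i (fun j _ hj => by rw [Pi.single_eq_of_ne hj, zero_mul])
    (fun hi => absurd (Finset.mem_univ i) hi), Pi.single_eq_same, one_mul] at h1
  exact h1

/-- a vector of the `2 d` coordinates as a point -/
def toZ' (x : ZI n → ℝ) : ZZ n := (fun i => x (Sum.inl i), fun i => x (Sum.inr i))

theorem comp_inr_eq (x : HL n → ℝ) : x ∘ Sum.inr = pt (toZ' (x ∘ Sum.inr)) := by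
  funext z
  rcases z with z | z <;> rfl

theorem lin_sum (l : (Fin (n + 1) → ℝ) →ₗ[ℝ] ℝ) (y : Fin (n + 1) → ℝ) :
    ∑ j, l (Pi.single j 1) * y j = l y := by
  classical
  conv_rhs => rw [← Finset.univ_sum_single y]
  rw [map_sum]
  refine Finset.sum_congr rfl fun j _ => ?_
  have h : (Pi.single j (y j) : Fin (n + 1) → ℝ) = y j • Pi.single j 1 := by
    rw [← Pi.single_smul, smul_eq_mul, mul_one]
  rw [h, map_smul, smul_eq_mul, mul_comm]

/-- `(1, u)` as polynomials -/
noncomputable def vz {n : ℕ} : Fin (n + 1) → MvPolynomial (HL n) ℝ :=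
  Fin.cons 1 (fun i => X (Sum.inl i))

theorem eval_vz (x : HL n → ℝ) (j : Fin (n + 1)) : eval x (vz j) = vec1 (x ∘ Sum.inl) j := by
  refine Fin.cases ?_ (fun j => ?_) j
  · simp [vz]
  · simp [vz]

variable {A : Finset (ZZ n × ZZ n)} {W D σ v : ℕ}

/-- **[STE]**: the polynomial `QP G` of the stereographic case is not in the prime of the hat leaf -/
theorem ste_notMem (S : Side n A W D σ v) {e : ZZ n × ZZ n} (he : e ∈ A)
    (hinj : ∀ w ∈ S.V e, w.1 = 0 → w = 0)
    {G : (Fin (n + 1) → ℝ) →ₗ[ℝ] ZZ n} (hGV : ∀ v, G v ∈ S.V e) (hG : ∀ v, (G v).1 = v)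
    (hw : e.1 - e.2 ∉ S.V e) :
    rename (R := ℝ) Sum.inl (QP G) ∉ S.P e := by
  classical
  intro hmem
  set s := e.1 with hs
  -- the point of the flat over `ζ_s`
  set s' : ZZ n := e.2 + G (s.1 - e.2.1) with hs'def
  have hs' : s'.1 = s.1 := by
    rw [hs'def, Prod.fst_add, hG]; abel
  have hs'V : e.2 - s' ∈ S.V e := by
    have h1 : e.2 - s' = -G (s.1 - e.2.1) := by rw [hs'def]; abel
    rw [h1]
    exact Submodule.neg_mem _ (hGV _)
  set q : MvPolynomial (HL n) ℝ →+* (MvPolynomial (HL n) ℝ ⧸ S.P e) := Ideal.Quotient.mk (S.P e)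
    with hq
  have hinc : ∀ j : Fin (n + 1), q (X (Sum.inr (Sum.inl j)) - C (s.1 j)) =
      q (X (Sum.inr (Sum.inl 0)) - C (s.1 0)) * q (vz j) := by
    intro j
    refine Fin.cases ?_ (fun j => ?_) j
    · simp [vz]
    · have h1 : q (incL s j) = 0 := Ideal.Quotient.eq_zero_iff_mem.2 (S.hinc e he j)
      rw [incL, map_sub, sub_eq_zero] at h1
      rw [h1, map_mul, mul_comm]
      simp [vz]
  -- (b) the flat
  have hflat : ∀ i : ZI n, q (X (Sum.inr i) - C (crd i s')) =
      q (X (Sum.inr (Sum.inl 0)) - C (s.1 0)) *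
        q (rename (R := ℝ) Sum.inl (linP ((crd i).comp G))) := by
    intro i
    set l : ZZ n →ₗ[ℝ] ℝ := crd i - ((crd i).comp G).comp (LinearMap.fst ℝ _ _) with hl
    have hl0 : ∀ x ∈ S.V e, l x = 0 := by
      intro x hx
      have h1 : x - G x.1 = 0 := hinj _ (Submodule.sub_mem _ hx (hGV _))
        (by rw [Prod.fst_sub, hG, sub_self])
      have h2 : l x = crd i (x - G x.1) := by
        rw [map_sub]; rfl
      rw [h2, h1, map_zero]
    have h3 : rename (R := ℝ) Sum.inr (linL l e.2) ∈ S.P e := H82.linL_mem_of_ann S e l hl0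
    have h4 : (X (Sum.inr i) - C (crd i s') : MvPolynomial (HL n) ℝ) -
        ∑ j, C (crd i (G (Pi.single j 1))) * (X (Sum.inr (Sum.inl j)) - C (s.1 j)) =
        rename (R := ℝ) Sum.inr (linL l e.2) := by
      apply MvPolynomial.funext
      intro x
      rw [eval_rename, comp_inr_eq, eval_linL]
      simp only [map_sub, map_sum, map_mul, eval_X, eval_C]
      have h5 : ∑ j, crd i (G (Pi.single j 1)) * (x (Sum.inr (Sum.inl j)) - s.1 j) =
          crd i (G ((toZ' (x ∘ Sum.inr)).1 - s.1)) := by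
        exact lin_sum ((crd i).comp G) ((toZ' (x ∘ Sum.inr)).1 - s.1)
      have h6 : x (Sum.inr i) = crd i (toZ' (x ∘ Sum.inr)) := by
        rcases i with i | i <;> rfl
      rw [h5, h6, hl, hs'def]
      simp only [LinearMap.sub_apply, LinearMap.comp_apply, LinearMap.fst_apply, map_add, map_sub]
      ring
    have h5 : q ((X (Sum.inr i) - C (crd i s') : MvPolynomial (HL n) ℝ) -
        ∑ j, C (crd i (G (Pi.single j 1))) * (X (Sum.inr (Sum.inl j)) - C (s.1 j))) = 0 := by
      rw [h4]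
      exact Ideal.Quotient.eq_zero_iff_mem.2 h3
    rw [map_sub, sub_eq_zero] at h5
    rw [h5, map_sum]
    have h6 : rename (R := ℝ) (Sum.inl : Fin n → HL n) (linP ((crd i).comp G)) =
        ∑ j, C (crd i (G (Pi.single j 1))) * vz j := by
      apply MvPolynomial.funext
      intro x
      rw [eval_rename, H686.eval_linP, ← lin_sum ((crd i).comp G)]
      simp only [map_sum, map_mul, eval_C, eval_vz]
      rfl
    rw [h6, map_sum, Finset.mul_sum]
    refine Finset.sum_congr rfl fun j _ => ?_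
    rw [map_mul, map_mul, hinc j]
    ring
  -- the quadric
  have hquad : ∑ i : Fin (n + 1), (X (Sum.inr (Sum.inl i)) - C (s.1 i)) * C (s'.2 i - s.2 i) ∈
      S.P e := by
    rw [← Ideal.Quotient.eq_zero_iff_mem]
    have h1 : q (incQ s) = 0 := Ideal.Quotient.eq_zero_iff_mem.2 (S.hincQ e he)
    have h2 : q (∑ i : Fin (n + 1), (X (Sum.inr (Sum.inl i)) - C (s'.1 i)) *
        (X (Sum.inr (Sum.inr i)) - C (s'.2 i))) = 0 := by
      have h3 : q (rename (R := ℝ) Sum.inl (QP G)) = 0 := Ideal.Quotient.eq_zero_iff_mem.2 hmem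
      rw [map_sum]
      have h4 : ∀ i : Fin (n + 1), q ((X (Sum.inr (Sum.inl i)) - C (s'.1 i)) *
          (X (Sum.inr (Sum.inr i)) - C (s'.2 i))) =
          q (X (Sum.inr (Sum.inl 0)) - C (s.1 0)) ^ 2 *
            q (rename (R := ℝ) Sum.inl (linP ((crd (Sum.inl i)).comp G) *
              linP ((crd (Sum.inr i)).comp G))) := by
        intro i
        have h5 := hflat (Sum.inl i)
        have h6 := hflat (Sum.inr i)
        have h7 : crd (Sum.inl i) s' = s'.1 i := rfl
        have h8 : crd (Sum.inr i) s' = s'.2 i := rfl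
        rw [h7] at h5
        rw [h8] at h6
        rw [map_mul, h5, h6, map_mul, map_mul]
        ring
      simp only [h4]
      rw [← Finset.mul_sum, ← map_sum, ← map_sum]
      have h5 : (∑ i : Fin (n + 1), linP ((crd (Sum.inl i)).comp G) *
          linP ((crd (Sum.inr i)).comp G)) = QP G := rfl
      rw [h5, h3, mul_zero]
    have h3 : (∑ i : Fin (n + 1), (X (Sum.inr (Sum.inl i)) - C (s.1 i)) * C (s'.2 i - s.2 i) :
        MvPolynomial (HL n) ℝ) = incQ s - ∑ i : Fin (n + 1), (X (Sum.inr (Sum.inl i)) - C (s'.1 i)) *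
        (X (Sum.inr (Sum.inr i)) - C (s'.2 i)) := by
      rw [incQ, ← Finset.sum_sub_distrib]
      refine Finset.sum_congr rfl fun i _ => ?_
      rw [hs', map_sub]
      ring
    rw [h3]
    show q _ = 0
    rw [map_sub, h1, h2, sub_zero]
  -- the linear functional
  set l : ZZ n →ₗ[ℝ] ℝ := H192.Bl ℝ n (s' - s) with hl
  have hlv : ∀ x : ZZ n, l x = Bf (s' - s) x := fun x => rfl
  have hs0 : ∀ i, (s' - s).1 i = 0 := by
    intro i
    rw [Prod.fst_sub, hs', sub_self, Pi.zero_apply]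
  have hev : ∀ x : HL n → ℝ, eval x (∑ i : Fin (n + 1), (X (Sum.inr (Sum.inl i)) - C (s.1 i)) *
      C (s'.2 i - s.2 i) : MvPolynomial (HL n) ℝ) = l (toZ' (x ∘ Sum.inr)) - l s := by
    intro x
    rw [hlv, hlv]
    simp only [map_sum, map_mul, map_sub, eval_X, eval_C, Bf, hs0, zero_mul, zero_add]
    rw [← Finset.sum_sub_distrib]
    refine Finset.sum_congr rfl fun i _ => ?_
    simp only [toZ', Prod.snd_sub, Pi.sub_apply, Function.comp_apply]
    ring
  have hpt : l e.2 - l s = 0 := by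
    have h1 := H930.eval_eq_zero_of_mem_germ (S.hzero e he) hquad
    rw [hev] at h1
    exact h1
  have hlin : linL l e.2 ∈ S.Pr e := by
    show rename (R := ℝ) Sum.inr (linL l e.2) ∈ S.P e
    have h1 : (rename (R := ℝ) Sum.inr (linL l e.2) : MvPolynomial (HL n) ℝ) =
        ∑ i : Fin (n + 1), (X (Sum.inr (Sum.inl i)) - C (s.1 i)) * C (s'.2 i - s.2 i) := by
      apply MvPolynomial.funext
      intro x
      rw [eval_rename, comp_inr_eq, eval_linL, hev]
      linarith
    rw [h1]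
    exact hquad
  have h1 : s' - s = 0 := by
    refine eq_zero_of_perp hGV hG (fun b hb => ?_) (funext hs0)
    exact S.mem_V.1 hb l hlin
  apply hw
  have h2 : s - e.2 = -(e.2 - s') := by
    rw [sub_eq_zero.1 h1]; abel
  rw [h2]
  exact Submodule.neg_mem _ hs'V

end Vale.Agent.P054.T2.H83
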